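import Vale.Agent.P128.T.End

/-! P128 RAD/End: frozen statement `ENDREG`. -/

namespace Vale.Agent.P128

open MeasureTheory Set Metric Filter Topology
open scoped ENNReal

theorem unit_End {x e : ℂ} {ρ A α C β : ℝ} {z z' : ℝ → ℂ} (hρ : 0 < ρ) (hβ : 0 < β)
    (hz : Radial x ρ A α z z') (h : ∀ r ∈ Ioc 0 ρ, ‖z r - x - r * e‖ ≤ C * r ^ (1 + β)) :
    ‖e‖ = 1 := by
  have t : Tendsto (fun r : ℝ => C * r ^ β) (𝓝 0) (𝓝 (C * 0 ^ β)) :=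
    ((Real.continuous_rpow_const hβ.le).tendsto 0).const_mul C
  rw [Real.zero_rpow hβ.ne', mul_zero] at t
  have k : |1 - ‖e‖| ≤ 0 := by
    refine ge_of_tendsto (t.mono_left (nhdsWithin_le_nhds (s := Ioi 0))) ?_
    filter_upwards [Ioc_mem_nhdsGT hρ] with r hr
    have k1 := h r hr
    have k2 := abs_norm_sub_norm_le (z r - x) (r * e)
    rw [hz.norm r hr, norm_mul, Complex.norm_real, Real.norm_of_nonneg hr.1.le,
      show r - r * ‖e‖ = r * (1 - ‖e‖) by ring, abs_mul, abs_of_pos hr.1] at k2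
    rw [Real.rpow_add hr.1, Real.rpow_one] at k1
    refine le_of_mul_le_mul_left (k2.trans (k1.trans_eq ?_)) hr.1
    ring
  have := abs_nonpos_iff.1 k
  linarith

/-- A radial curve with a tangent at its centre is a `C^{1,α'}` arc. -/
theorem ENDREG {α β : ℝ} (hα : 0 < α) (hβ : 0 < β) : ∃ α' : ℝ, 0 < α' ∧
    ∀ (x e : ℂ) (ρ A C : ℝ) (z z' : ℝ → ℂ), 0 < ρ → Radial x ρ A α z z' →
      (∀ r ∈ Ioc 0 ρ, ‖z r - x - r * e‖ ≤ C * r ^ (1 + β)) →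
      ∃ γ γ' : ℝ → ℂ, IsArc α' γ γ' ∧ γ '' Icc 0 1 = {x} ∪ z '' Ioc 0 ρ ∧ γ 0 = x ∧
        γ' 0 = ρ * e := by
  obtain ⟨a, ha, a1, a2⟩ := T.exp_End hα hβ
  refine ⟨a, ha, fun x e ρ A C z z' hρ hz h => ?_⟩
  obtain ⟨γ, γ', h1, h2, h3, h4⟩ :=
    T.end_arc' hρ hα hβ (unit_End hρ hβ hz h) ha a1 a2 hz h a ⟨ha, le_rfl⟩
  exact ⟨γ, γ', h1, h4, h2, h3⟩

end Vale.Agent.P128
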