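import Vale.Agent.P128.RAD.Gr0

/-! P128 RAD/Gr1 (TASK, about 170 lines): frozen statements `Graph.mono`, `Graph.reg`, `Graph.flat`. Use RAD/Gr0 (`Rd.crv_mem`, `Rd.crv_deriv`, `Rd.crv_sub`, `Rd.crv_of_mem`, `Rd.gr_abs`).
`mono`: `(|s-t|/r)^α = (r'/r)^α (|s-t|/r')^α`. `reg`: `N` = the closed square `{w | |((w-y)/e).re| ≤ h ∧ |((w-y)/e).im| ≤ h}` (contains `ball y h`, inside `closedBall y (2h)`), `γ t = crv y e φ (-h + 2 h t)`, `γ' t = 2 h * crv' e φ' (-h + 2 h t)`, `ArcThrough` at `t = 1/2`.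
`flat`: `e' = v / ‖v‖` with `v = crv' e φ' 0`; for `w = crv s`: `((w - y) conj e').im = (φ s - s φ' 0) / ‖v‖`, `‖v‖ ≥ 1`, and `|φ s - s φ' 0| ≤ η |s|` near `0` (`hasDerivAt_iff_isLittleO`). Helper names end with `_Gr1`. -/

namespace Vale.Agent.P128

open MeasureTheory Set Metric Filter Topology
open scoped ENNReal

theorem Graph.mono {K : Set ℂ} {y e : ℂ} {h A α r : ℝ} {φ φ' : ℝ → ℝ}
    (hG : Graph K y e h A α r φ φ') (hr : 0 < r) (hα : 0 < α) {h' r' A' : ℝ} (hh : h' ≤ h)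
    (hr' : 0 < r') (hA : max A 0 * (r' / r) ^ α ≤ A') : Graph K y e h' A' α r' φ φ' := by
  have hs : Icc (-h') h' ⊆ Icc (-h) h := Icc_subset_Icc (neg_le_neg hh) hh
  refine ⟨hG.unit, hG.zero, fun t ht => hG.deriv t (hs ht), fun t ht => hG.slope t (hs ht),
    fun s h1 t h2 => ?_, fun s h1 t h2 => hG.eq s (hs h1) t (hs h2)⟩
  have e : (|s - t| / r) ^ α = (r' / r) ^ α * (|s - t| / r') ^ α := by
    rw [← Real.mul_rpow (by positivity) (by positivity)]
    congr 1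
    field_simp
  refine (hG.holder s (hs h1) t (hs h2)).trans
    ((mul_le_mul_of_nonneg_right (le_max_left A 0) (by positivity)).trans ?_)
  rw [e, ← mul_assoc]
  exact mul_le_mul_of_nonneg_right hA (by positivity)

/-- A graph is an arc through its centre. -/
theorem Graph.reg {Ω K : Set ℂ} {y e : ℂ} {h A α r : ℝ} {φ φ' : ℝ → ℝ}
    (hG : Graph K y e h A α r φ φ') (hh : 0 < h) (hr : 0 < r) (hα : 0 < α)
    (hΩ : closedBall y (2 * h) ⊆ Ω) : Reg Ω K y := by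
  have he := hG.unit
  have he0 : e ≠ 0 := norm_ne_zero_iff.1 (by rw [he]; exact one_ne_zero)
  have hI : ∀ t ∈ Icc (0 : ℝ) 1, -h + 2 * h * t ∈ Icc (-h) h := fun t ht =>
    ⟨by nlinarith [ht.1], by nlinarith [ht.2]⟩
  refine ⟨α, hα, {w | ∃ s ∈ Icc (-h) h, ∃ t ∈ Icc (-h) h,
    w = y + e * ((s : ℂ) + (t : ℂ) * Complex.I)}, ?_, ?_,
    Or.inl ⟨fun t => Rd.crv y e φ (-h + 2 * h * t), fun t => (2 * h) • Rd.crv' e φ' (-h + 2 * h * t),
      ⟨fun t ht => ?_, fun t ht => ?_, fun s hs t ht hst => ?_, ?_⟩, ?_, 1 / 2,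
      ⟨by norm_num, by norm_num⟩, ?_⟩⟩
  · refine mem_of_superset (closedBall_mem_nhds y hh) fun w hw => ?_
    have h1 : ‖(w - y) / e‖ ≤ h := by
      rw [norm_div, he, div_one, ← dist_eq_norm]
      exact hw
    refine ⟨((w - y) / e).re, abs_le.1 ((Complex.abs_re_le_norm _).trans h1), ((w - y) / e).im,
      abs_le.1 ((Complex.abs_im_le_norm _).trans h1), ?_⟩
    rw [Complex.re_add_im, mul_div_cancel₀ _ he0, add_sub_cancel]
  · rintro w ⟨s, hs, t, ht, rfl⟩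
    refine hΩ ?_
    rw [mem_closedBall, dist_eq_norm, add_sub_cancel_left, norm_mul, he, one_mul]
    refine (norm_add_le _ _).trans ?_
    rw [norm_mul, Complex.norm_I, mul_one, Complex.norm_real, Complex.norm_real, Real.norm_eq_abs,
      Real.norm_eq_abs]
    linarith [abs_le.2 hs, abs_le.2 ht]
  · have h1 : HasDerivAt (fun t : ℝ => -h + 2 * h * t) (2 * h) t := by
      simpa using ((hasDerivAt_id t).const_mul (2 * h)).const_add (-h)
    exact ((Rd.crv_deriv hG (hI t ht)).scomp t h1).hasDerivWithinAt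
  · refine smul_ne_zero (by positivity) (norm_ne_zero_iff.1 ?_)
    linarith [(Rd.crv'_bound hG (hI t ht)).2.1]
  · have h1 := (Rd.crv_sub hG (hI s hs) (hI t ht)).1
    have h2 : Rd.crv y e φ (-h + 2 * h * s) = Rd.crv y e φ (-h + 2 * h * t) := hst
    rw [h2, sub_self, norm_zero, abs_nonpos_iff] at h1
    have h3 : 2 * h * s = 2 * h * t := by linarith
    exact mul_left_cancel₀ (by positivity) h3
  · refine ⟨2 * h * (A * (2 * h / r) ^ α), fun s hs t ht => ?_⟩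
    rw [← smul_sub, norm_smul, Rd.crv'_sub hG, Real.norm_eq_abs, abs_of_pos (by positivity),
      mul_assoc (2 * h)]
    refine mul_le_mul_of_nonneg_left ((hG.holder _ (hI s hs) _ (hI t ht)).trans (le_of_eq ?_))
      (by positivity)
    rw [mul_assoc A, ← Real.mul_rpow (by positivity) (by positivity)]
    have e1 : -h + 2 * h * s - (-h + 2 * h * t) = 2 * h * (s - t) := by ring
    rw [e1, abs_mul, abs_of_pos (by positivity : 0 < 2 * h), mul_div_right_comm]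
  · ext w
    constructor
    · rintro ⟨hw, s, hs, t, ht, rfl⟩
      have h1 := (hG.eq s hs t ht).1 hw
      refine ⟨(s + h) / (2 * h), ⟨div_nonneg (by linarith [hs.1]) (by positivity),
        (div_le_one (by positivity)).2 (by linarith [hs.2])⟩, ?_⟩
      have e1 : -h + 2 * h * ((s + h) / (2 * h)) = s := by field_simp; ring
      dsimp only
      rw [e1, h1]
      rfl
    · rintro ⟨t, ht, rfl⟩
      refine ⟨Rd.crv_mem hG (hI t ht), _, hI t ht, φ (-h + 2 * h * t), abs_le.1 ?_, rfl⟩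
      have h1 := Rd.gr_abs hG (hI t ht)
      have h2 := abs_le.2 (hI t ht)
      linarith
  · have e1 : -h + 2 * h * (1 / 2) = 0 := by ring
    dsimp only
    rw [e1]
    exact Rd.crv_zero hG

/-- A graph is flat at small scales around its centre. -/
theorem Graph.flat {K : Set ℂ} {y e : ℂ} {h A α r : ℝ} {φ φ' : ℝ → ℝ}
    (hG : Graph K y e h A α r φ φ') (hh : 0 < h) :
    ∃ e' : ℂ, ‖e'‖ = 1 ∧ ‖e' - e‖ ≤ 1 / 50 ∧ ∀ η : ℝ, 0 < η →
      ∀ᶠ ρ in 𝓝[>] (0 : ℝ), K ∩ closedBall y ρ ⊆ strip y e' (η * ρ) := by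
  have h0 : (0 : ℝ) ∈ Icc (-h) h := ⟨by linarith, hh.le⟩
  obtain ⟨b1, b2, b3⟩ := Rd.crv'_bound hG h0
  obtain ⟨n, hn⟩ : ∃ n, n = ‖Rd.crv' e φ' 0‖ := ⟨_, rfl⟩
  rw [← hn] at b2 b3
  have hn0 : 0 < n := by linarith
  refine ⟨((n⁻¹ : ℝ) : ℂ) * Rd.crv' e φ' 0, ?_, ?_, fun η hη => ?_⟩
  · rw [norm_mul, Complex.norm_real, ← hn, Real.norm_eq_abs, abs_of_pos (by positivity),
      inv_mul_cancel₀ hn0.ne']
  · have e1 : ((n⁻¹ : ℝ) : ℂ) * Rd.crv' e φ' 0 - e =
        ((n⁻¹ - 1 : ℝ) : ℂ) * Rd.crv' e φ' 0 + (Rd.crv' e φ' 0 - e) := by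
      push_cast
      ring
    rw [e1]
    refine (norm_add_le _ _).trans ?_
    have e2 : n⁻¹ ≤ 1 := inv_le_one_of_one_le₀ b2
    rw [norm_mul, Complex.norm_real, ← hn, Real.norm_eq_abs, abs_of_nonpos (by linarith),
      neg_sub, sub_mul, inv_mul_cancel₀ hn0.ne']
    linarith
  · have h1 := (hasDerivAt_iff_isLittleO.1 (hG.deriv 0 h0)).bound hη
    obtain ⟨δ, hδ, h2⟩ := Metric.eventually_nhds_iff.1 h1
    filter_upwards [Ioo_mem_nhdsGT (lt_min hδ hh)] with ρ hρ w hw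
    have h3 : ‖w - y‖ ≤ ρ := mem_closedBall_iff_norm.1 hw.2
    obtain ⟨s, -, hs, rfl⟩ := Rd.crv_of_mem hG hw.1 (h3.trans (hρ.2.le.trans (min_le_right _ _)))
    have h4 := h2 (y := s) (by
      rw [Real.dist_eq, sub_zero]
      exact (hs.trans h3).trans_lt (hρ.2.trans_le (min_le_left _ _)))
    rw [hG.zero, sub_zero, sub_zero, smul_eq_mul, Real.norm_eq_abs, Real.norm_eq_abs] at h4
    have e0 : e * (starRingEnd ℂ) e = 1 := by
      rw [Complex.mul_conj, Complex.normSq_eq_norm_sq, hG.unit]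
      simp
    have e1 : (Rd.crv y e φ s - y) * (starRingEnd ℂ) (((n⁻¹ : ℝ) : ℂ) * Rd.crv' e φ' 0) =
        (e * (starRingEnd ℂ) e) * (((n⁻¹ : ℝ) : ℂ) * (((s : ℂ) + (φ s : ℂ) * Complex.I) *
          (1 - (φ' 0 : ℂ) * Complex.I))) := by
      simp only [Rd.crv, Rd.crv', map_mul, map_add, map_one, Complex.conj_ofReal, Complex.conj_I]
      ring
    have e2 : ((((s : ℂ) + (φ s : ℂ) * Complex.I) * (1 - (φ' 0 : ℂ) * Complex.I))).im =
        φ s - s * φ' 0 := by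
      simp
      ring
    show |((Rd.crv y e φ s - y) * (starRingEnd ℂ) (((n⁻¹ : ℝ) : ℂ) * Rd.crv' e φ' 0)).im| ≤ η * ρ
    rw [e1, e0, one_mul, Complex.im_ofReal_mul, e2, abs_mul, abs_of_pos (by positivity : 0 < n⁻¹)]
    have e3 : n⁻¹ ≤ 1 := inv_le_one_of_one_le₀ b2
    calc n⁻¹ * |φ s - s * φ' 0| ≤ 1 * |φ s - s * φ' 0| :=
          mul_le_mul_of_nonneg_right e3 (abs_nonneg _)
      _ ≤ η * |s| := by rw [one_mul]; exact h4
      _ ≤ η * ρ := mul_le_mul_of_nonneg_left (hs.trans h3) hη.le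

end Vale.Agent.P128
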