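import Vale.Agent.P128.RAD.Gr0
import Vale.Agent.P128.TA1.Arc

/-! P128 RAD/Gr2 (TASK, about 170 lines): frozen statement `Graph.disc`. Use RAD/Gr0 (`Rd.crv` is by definition the map in the statement).
`g s = s² + (φ s)²= ‖crv s - y‖²` is strictly increasing on `[0, h]` and strictly decreasing on `[-h, 0]`: for `0 ≤ s < t`, `|φ t² - φ s²| ≤ (t - s)(t + s) / 10⁴` by `gr_lip`, `gr_abs` (no derivative needed).
`b` by the intermediate value theorem on `[ρ/2, ρ]` (`g (ρ/2) ≤ ρ²`, `ρ² ≤ g ρ`), same for `a`. Length: `arc_up` (TA1/Arc) with `σ t = 101/100 * t` and `crv_sub` (do not use `α`, it may be negative); `lenc` is a `toReal` (`ENNReal.toReal_le_of_le_ofReal`). Helper names end with `_Gr2`. -/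

namespace Vale.Agent.P128

open MeasureTheory Set Metric Filter Topology
open scoped ENNReal

open Rd

theorem sq_Gr2 {y e : ℂ} (he : ‖e‖ = 1) (φ : ℝ → ℝ) (s : ℝ) :
    ‖crv y e φ s - y‖ ^ 2 = s ^ 2 + φ s ^ 2 := by
  unfold crv
  rw [add_sub_cancel_left, norm_mul, he, one_mul, Complex.sq_norm, Complex.normSq_add_mul_I]

theorem mono_Gr2 {K : Set ℂ} {y e : ℂ} {h A α r : ℝ} {φ φ' : ℝ → ℝ}
    (hG : Graph K y e h A α r φ φ') : StrictMonoOn (fun s => ‖crv y e φ s - y‖) (Icc 0 h) := by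
  intro s hs t ht hst
  have ms : s ∈ Icc (-h) h := ⟨by linarith [hs.1, hs.2], hs.2⟩
  have mt : t ∈ Icc (-h) h := ⟨by linarith [ht.1, ht.2], ht.2⟩
  have h1 := gr_lip hG mt ms
  have h2 := gr_abs hG ms
  have h3 := gr_abs hG mt
  rw [abs_of_nonneg (by linarith : 0 ≤ t - s)] at h1
  rw [abs_of_nonneg hs.1] at h2
  rw [abs_of_nonneg ht.1] at h3
  have h4 : |φ t + φ s| ≤ (t + s) / 100 := (abs_add_le _ _).trans (by linarith)
  have h5 : |(φ t - φ s) * (φ t + φ s)| ≤ (t - s) / 100 * ((t + s) / 100) := by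
    rw [abs_mul]
    exact mul_le_mul h1 h4 (abs_nonneg _) (by linarith)
  have h6 := (abs_le.1 h5).1
  have h7 : 0 < (t - s) * (t + s) := mul_pos (by linarith) (by linarith [hs.1])
  refine lt_of_pow_lt_pow_left₀ 2 (norm_nonneg _) ?_
  rw [sq_Gr2 hG.unit, sq_Gr2 hG.unit]
  nlinarith

theorem cont_Gr2 {K : Set ℂ} {y e : ℂ} {h A α r : ℝ} {φ φ' : ℝ → ℝ}
    (hG : Graph K y e h A α r φ φ') : ContinuousOn (crv y e φ) (Icc (-h) h) :=
  fun _ hs => (crv_deriv hG hs).continuousAt.continuousWithinAt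

theorem half_Gr2 {K : Set ℂ} {y e : ℂ} {h A α r : ℝ} {φ φ' : ℝ → ℝ}
    (hG : Graph K y e h A α r φ φ') {ρ : ℝ} (hρ : 0 < ρ) (hρh : ρ ≤ h) :
    ∃ b, ρ / 2 ≤ b ∧ b ≤ ρ ∧ ∀ s ∈ Icc 0 h,
      (‖crv y e φ s - y‖ ≤ ρ ↔ s ≤ b) ∧ (‖crv y e φ s - y‖ = ρ ↔ s = b) := by
  have m0 : (0 : ℝ) ∈ Icc (-h) h := ⟨by linarith, by linarith⟩
  have m1 : ρ / 2 ∈ Icc (-h) h := ⟨by linarith, by linarith⟩
  have m2 : ρ ∈ Icc (-h) h := ⟨by linarith, hρh⟩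
  have h1 := (crv_sub hG m1 m0).2.1
  have h2 := (crv_sub hG m2 m0).1
  rw [crv_zero hG, sub_zero, abs_of_nonneg (by linarith)] at h1 h2
  have hc : ContinuousOn (fun s => ‖crv y e φ s - y‖) (Icc (ρ / 2) ρ) :=
    (((cont_Gr2 hG).mono (Icc_subset_Icc m1.1 m2.2)).sub continuousOn_const).norm
  obtain ⟨b, hb, e1⟩ := intermediate_value_Icc (by linarith) hc
    (show ρ ∈ Icc ‖crv y e φ (ρ / 2) - y‖ ‖crv y e φ ρ - y‖ from ⟨by linarith, h2⟩)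
  have e2 : ‖crv y e φ b - y‖ = ρ := e1
  have mb : b ∈ Icc 0 h := ⟨by linarith [hb.1], hb.2.trans hρh⟩
  refine ⟨b, hb.1, hb.2, fun s hs => ?_⟩
  rw [← e2]
  exact ⟨(mono_Gr2 hG).le_iff_le hs mb, (mono_Gr2 hG).eq_iff_eq hs mb⟩

theorem neg_Gr2 (y e : ℂ) (φ : ℝ → ℝ) (s : ℝ) :
    crv y (-e) (fun s => -φ (-s)) (-s) = crv y e φ s := by
  unfold crv
  simp only [neg_neg]
  push_cast
  ring

theorem both_Gr2 {K : Set ℂ} {y e : ℂ} {h A α r : ℝ} {φ φ' : ℝ → ℝ}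
    (hG : Graph K y e h A α r φ φ') {ρ : ℝ} (hρ : 0 < ρ) (hρh : ρ ≤ h) :
    ∃ a b : ℝ, -ρ ≤ a ∧ a ≤ -(ρ / 2) ∧ ρ / 2 ≤ b ∧ b ≤ ρ ∧ ∀ s ∈ Icc (-h) h,
      (‖crv y e φ s - y‖ ≤ ρ ↔ s ∈ Icc a b) ∧ (‖crv y e φ s - y‖ = ρ ↔ s = a ∨ s = b) := by
  obtain ⟨b, b1, b2, hb⟩ := half_Gr2 hG hρ hρh
  obtain ⟨a, a1, a2, ha⟩ := half_Gr2 (graph_neg hG) hρ hρh
  refine ⟨-a, b, by linarith, by linarith, b1, b2, fun s hs => ?_⟩
  rcases le_total 0 s with h0 | h0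
  · obtain ⟨h1, h2⟩ := hb s ⟨h0, hs.2⟩
    rw [h2, h1]
    exact ⟨⟨fun h3 => ⟨by linarith, h3⟩, fun h3 => h3.2⟩,
      ⟨Or.inr, fun h3 => h3.resolve_left fun h4 => by linarith⟩⟩
  · obtain ⟨h1, h2⟩ := ha (-s) ⟨by linarith, by linarith [hs.1]⟩
    rw [neg_Gr2] at h1 h2
    rw [h2, h1]
    exact ⟨⟨fun h3 => ⟨by linarith, by linarith⟩, fun h3 => by linarith [h3.1]⟩,
      ⟨fun h3 => Or.inl (by linarith), fun h3 => h3.elim (fun h4 => by linarith)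
        fun h4 => by linarith⟩⟩

/-- A graph in small discs around its centre. -/
theorem Graph.disc {K : Set ℂ} {y e : ℂ} {h A α r : ℝ} {φ φ' : ℝ → ℝ}
    (hG : Graph K y e h A α r φ φ') {ρ : ℝ} (hρ : 0 < ρ) (hρh : ρ ≤ h) :
    ∃ a b : ℝ, -ρ ≤ a ∧ a ≤ -(ρ / 2) ∧ ρ / 2 ≤ b ∧ b ≤ ρ ∧
      K ∩ closedBall y ρ = (fun s : ℝ => y + e * ((s : ℂ) + (φ s : ℂ) * Complex.I)) '' Icc a b ∧
      K ∩ sphere y ρ = {y + e * ((a : ℂ) + (φ a : ℂ) * Complex.I),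
        y + e * ((b : ℂ) + (φ b : ℂ) * Complex.I)} ∧
      |φ a| ≤ ρ / 100 ∧ |φ b| ≤ ρ / 100 ∧
      IsPreconnected (K ∩ closedBall y ρ) ∧ lenc K y ρ ≤ 2.1 * ρ := by
  obtain ⟨a, b, a1, a2, b1, b2, H⟩ := both_Gr2 hG hρ hρh
  have hs : Icc a b ⊆ Icc (-h) h := Icc_subset_Icc (by linarith) (by linarith)
  have ma : a ∈ Icc (-h) h := hs ⟨le_rfl, by linarith⟩
  have mb : b ∈ Icc (-h) h := hs ⟨by linarith, le_rfl⟩
  have e1 : K ∩ closedBall y ρ = crv y e φ '' Icc a b := by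
    ext w
    constructor
    · rintro ⟨h1, h2⟩
      rw [mem_closedBall, dist_eq_norm] at h2
      obtain ⟨s, ms, -, rfl⟩ := crv_of_mem hG h1 (h2.trans hρh)
      exact ⟨s, (H s ms).1.1 h2, rfl⟩
    · rintro ⟨s, ms, rfl⟩
      refine ⟨crv_mem hG (hs ms), ?_⟩
      rw [mem_closedBall, dist_eq_norm]
      exact (H s (hs ms)).1.2 ms
  have e2 : K ∩ sphere y ρ = {crv y e φ a, crv y e φ b} := by
    ext w
    constructor
    · rintro ⟨h1, h2⟩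
      rw [mem_sphere, dist_eq_norm] at h2
      obtain ⟨s, ms, -, rfl⟩ := crv_of_mem hG h1 (h2.le.trans hρh)
      rcases (H s ms).2.1 h2 with rfl | rfl
      · exact Or.inl rfl
      · exact Or.inr rfl
    · rintro (rfl | rfl)
      · refine ⟨crv_mem hG ma, ?_⟩
        rw [mem_sphere, dist_eq_norm]
        exact (H a ma).2.2 (Or.inl rfl)
      · refine ⟨crv_mem hG mb, ?_⟩
        rw [mem_sphere, dist_eq_norm]
        exact (H b mb).2.2 (Or.inr rfl)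
  refine ⟨a, b, a1, a2, b1, b2, e1, e2, ?_, ?_, ?_, ?_⟩
  · have h1 := gr_abs hG ma
    rw [abs_of_nonpos (by linarith : a ≤ 0)] at h1
    linarith
  · have h1 := gr_abs hG mb
    rw [abs_of_nonneg (by linarith : 0 ≤ b)] at h1
    linarith
  · rw [e1]
    exact isPreconnected_Icc.image _ ((cont_Gr2 hG).mono hs)
  · unfold lenc
    rw [e1]
    refine ENNReal.toReal_le_of_le_ofReal (by positivity)
      ((arc_up (σ := fun t => 101 / 100 * t) fun s t h1 h2 h3 => ?_).trans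
        (ENNReal.ofReal_le_ofReal (by linarith)))
    have h4 := (crv_sub hG (hs ⟨h1.trans h2, h3⟩) (hs ⟨h1, h2.trans h3⟩)).2.1
    rw [abs_of_nonneg (by linarith)] at h4
    rw [dist_eq_norm]
    linarith

end Vale.Agent.P128
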