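import Vale.Agent.P128.RAD.Def
import Vale.Agent.P128.TA1.Arc

/-! P128 RAD/StBasic (TASK, about 200 lines): frozen statement `Star.basic`. Use `Rd.rad_gen`, `Rd.rad_cont`, `Rd.rad_lip` (RAD/Def), `arclen` (TA1/Arc).
Compact and preconnected: image of `Icc 0 s` under `Z r = if r ≤ 0 then x else z j r` (continuous at `0` since `‖z j r - x‖ = r`). Length: `K ∩ {dist w x ∈ Ioc a b} = ⋃ j, z j '' Ioc a b`, pairwise disjoint (`Radial.norm`, `Star.ne`), measurable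
(`MeasurableSet.image_of_continuousOn_injOn`), `measure_iUnion`, `tsum_fintype`, `ENNReal.ofReal_sum_of_nonneg`; for one curve `z j '' Ioc a b = ⋃ n, z j '' Icc (a + (b - a) / (n + 1)) b` (monotone union, `tendsto_measure_iUnion_atTop`), `arclen` on each piece,
continuity of the primitive (`intervalIntegral.continuousOn_primitive_interval_left` or `|∫ a..c| ≤ 2 (c - a)`). Integrable: bounded by `2`, continuous on `Ioc a b`. Helper names end with `_StB`. -/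

namespace Vale.Agent.P128

open MeasureTheory Set Metric Filter Topology
open scoped ENNReal

theorem int_StB {x : ℂ} {ρ A α : ℝ} {z z' : ℝ → ℂ} (hα : 0 < α) (hz : Radial x ρ A α z z')
    {a b : ℝ} (ha : 0 ≤ a) (hb : b ≤ ρ) : IntegrableOn (fun r => ‖z' r‖) (Ioc a b) := by
  have hs : Ioc a b ⊆ Ioc 0 ρ := Ioc_subset_Ioc ha hb
  refine IntegrableOn.of_bound measure_Ioc_lt_top
    (((Rd.rad_cont hα hz).mono hs).norm.aestronglyMeasurable measurableSet_Ioc) 2 ?_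
  filter_upwards [ae_restrict_mem measurableSet_Ioc] with r hr
  rw [norm_norm]
  exact hz.bound r (hs hr)

theorem inj_StB {x : ℂ} {ρ A α : ℝ} {z z' : ℝ → ℂ} (hz : Radial x ρ A α z z') :
    InjOn z (Ioc 0 ρ) := fun r hr s hs e => by rw [← hz.norm r hr, e, hz.norm s hs]

theorem len_StB {x : ℂ} {ρ A α : ℝ} {z z' : ℝ → ℂ} (hα : 0 < α) (hz : Radial x ρ A α z z')
    {a b : ℝ} (ha : 0 ≤ a) (hab : a ≤ b) (hb : b ≤ ρ) :
    μH[1] (z '' Ioc a b) = ENNReal.ofReal (∫ r in a..b, ‖z' r‖) := by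
  rcases hab.eq_or_lt with rfl | hlt
  · simp
  have hI : ∀ c, a ≤ c → c ≤ b → ENNReal.ofReal (∫ r in c..b, ‖z' r‖) =
      ∫⁻ r in Ioc c b, ENNReal.ofReal ‖z' r‖ := fun c hc hc' => by
    rw [intervalIntegral.integral_of_le hc']
    exact ofReal_integral_eq_lintegral_ofReal (int_StB hα hz (ha.trans hc) hb)
      (Eventually.of_forall fun _ => norm_nonneg _)
  obtain ⟨u, hu, hm, ht⟩ := exists_seq_strictAnti_tendsto' hlt
  have e : Ioc a b = ⋃ n, Icc (u n) b := by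
    ext r
    rw [mem_iUnion]
    refine ⟨fun hr => ?_, fun ⟨n, hn⟩ => ⟨(hm n).1.trans_le hn.1, hn.2⟩⟩
    obtain ⟨n, hn⟩ := (ht.eventually_lt_const hr.1).exists
    exact ⟨n, hn.le, hr.2⟩
  have mo : Monotone fun n => Icc (u n) b := fun m n h => Icc_subset_Icc_left (hu.antitone h)
  have mo' : Monotone fun n => z '' Icc (u n) b := fun m n h => image_mono (mo h)
  rw [hI a le_rfl hab, e, image_iUnion, mo'.measure_iUnion,
    setLIntegral_iUnion_of_directed _ mo.directed_le]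
  refine iSup_congr fun n => ?_
  have hs : Icc (u n) b ⊆ Ioc 0 ρ := fun r hr => ⟨(ha.trans_lt (hm n).1).trans_le hr.1, hr.2.trans hb⟩
  rw [(arclen (hm n).2.le (fun t ht => (hz.deriv t (hs ht)).hasDerivWithinAt)
    ((Rd.rad_cont hα hz).mono hs)).2 ((inj_StB hz).mono hs), hI _ (hm n).1.le (hm n).2.le,
    setLIntegral_congr Ioc_ae_eq_Icc]

theorem arm_StB {x : ℂ} {ρ A α : ℝ} {z z' : ℝ → ℂ} (hz : Radial x ρ A α z z') {s : ℝ}
    (hs : s ∈ Ioc 0 ρ) :
    IsCompact ({x} ∪ z '' Ioc 0 s) ∧ IsPreconnected ({x} ∪ z '' Ioc 0 s) := by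
  obtain ⟨Z, hZ⟩ : ∃ Z : ℝ → ℂ, Z = fun r => if r ≤ 0 then x else z r := ⟨_, rfl⟩
  have h0 : Z 0 = x := by simp [hZ]
  have h1 : ∀ r, 0 < r → Z r = z r := fun r hr => by simp [hZ, not_le.2 hr]
  have h2 : ∀ r ∈ Icc 0 s, dist (Z r) (Z 0) ≤ 2 * dist r 0 := fun r hr => by
    rcases hr.1.eq_or_lt with rfl | h
    · simp
    · rw [h0, h1 r h, dist_eq_norm, hz.norm r ⟨h, hr.2.trans hs.2⟩, Real.dist_eq, sub_zero,
        abs_of_pos h]
      linarith
  have hc : ContinuousOn Z (Icc 0 s) := by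
    refine (LipschitzOnWith.of_dist_le_mul (K := 2) fun r hr t ht => ?_).continuousOn
    rcases ht.1.eq_or_lt with rfl | h
    · exact h2 r hr
    rcases hr.1.eq_or_lt with rfl | h'
    · rw [dist_comm, dist_comm 0 t]
      exact h2 t ht
    rw [h1 r h', h1 t h, dist_eq_norm]
    exact Rd.rad_lip hz ⟨h', hr.2.trans hs.2⟩ ⟨h, ht.2.trans hs.2⟩
  have e : {x} ∪ z '' Ioc 0 s = Z '' Icc 0 s := by
    rw [← Ioc_insert_left hs.1.le, image_insert_eq, h0, image_congr fun r hr => h1 r hr.1]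
    rfl
  rw [e]
  exact ⟨isCompact_Icc.image_of_continuousOn hc, isPreconnected_Icc.image Z hc⟩

theorem mem_StB {N : ℕ} {K : Set ℂ} {x : ℂ} {ρ A α : ℝ} {z z' : Fin N → ℝ → ℂ}
    (hS : Star N K x ρ A α z z') {I : Set ℝ} (hI : I ⊆ Ioc 0 ρ) :
    K ∩ {w | dist w x ∈ I} = ⋃ j, z j '' I := by
  ext w
  constructor
  · rintro ⟨hw, hd⟩
    have h1 : w ∈ K ∩ closedBall x ρ := ⟨hw, (hI hd).2⟩
    rw [hS.eq] at h1
    rcases h1 with rfl | h1
    · exact absurd (hI hd).1 (by simp)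
    · obtain ⟨j, r, hr, rfl⟩ := mem_iUnion.1 h1
      refine mem_iUnion.2 ⟨j, r, ?_, rfl⟩
      rwa [mem_ofPred_eq, dist_eq_norm, (hS.rad j).norm r hr] at hd
  · intro hw
    obtain ⟨j, r, hr, rfl⟩ := mem_iUnion.1 hw
    have h1 : z j r ∈ K ∩ closedBall x ρ := by
      rw [hS.eq]
      exact Or.inr (mem_iUnion.2 ⟨j, r, hI hr, rfl⟩)
    refine ⟨h1.1, ?_⟩
    rwa [mem_ofPred_eq, dist_eq_norm, (hS.rad j).norm r (hI hr)]

/-- Points on circles, continuity, and the length of a star. -/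
theorem Star.basic {N : ℕ} {K : Set ℂ} {x : ℂ} {ρ A α : ℝ} {z z' : Fin N → ℝ → ℂ}
    (hS : Star N K x ρ A α z z') :
    (∀ s ∈ Ioc 0 ρ, K ∩ sphere x s = range fun j => z j s) ∧
    (∀ j, ContinuousOn (z' j) (Ioc 0 ρ)) ∧
    (∀ j, ∀ r ∈ Ioc 0 ρ, (z' j r * (starRingEnd ℂ) (z j r - x)).re = r ∧ 1 ≤ ‖z' j r‖) ∧
    (∀ j, ∀ s ∈ Ioc 0 ρ, IsCompact ({x} ∪ z j '' Ioc 0 s) ∧
      IsPreconnected ({x} ∪ z j '' Ioc 0 s)) ∧
    (∀ a b, 0 ≤ a → a ≤ b → b ≤ ρ → μH[1] (K ∩ {w | dist w x ∈ Ioc a b}) =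
      ENNReal.ofReal (∑ j, ∫ r in a..b, ‖z' j r‖)) ∧
    (∀ j, ∀ a b, 0 ≤ a → a ≤ b → b ≤ ρ → IntervalIntegrable (fun r => ‖z' j r‖) volume a b) := by
  refine ⟨fun s hs => ?_, fun j => Rd.rad_cont hS.apos (hS.rad j),
    fun j r hr => Rd.rad_gen (hS.rad j) hr, fun j s hs => arm_StB (hS.rad j) hs,
    fun a b ha hab hb => ?_, fun j a b ha hab hb =>
      (intervalIntegrable_iff_integrableOn_Ioc_of_le hab).2 (int_StB hS.apos (hS.rad j) ha hb)⟩
  · refine (mem_StB hS (singleton_subset_iff.2 hs)).trans ?_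
    simp only [image_singleton, iUnion_singleton_eq_range]
  · have hs : Ioc a b ⊆ Ioc 0 ρ := Ioc_subset_Ioc ha hb
    rw [mem_StB hS hs, measure_iUnion, tsum_fintype, ENNReal.ofReal_sum_of_nonneg fun j _ =>
      intervalIntegral.integral_nonneg hab fun _ _ => norm_nonneg _]
    · exact Finset.sum_congr rfl fun j _ => len_StB hS.apos (hS.rad j) ha hab hb
    · intro i j hij
      refine Set.disjoint_left.2 ?_
      rintro _ ⟨r, hr, rfl⟩ ⟨t, ht, e⟩
      have : t = r := by rw [← (hS.rad j).norm t (hs ht), e, (hS.rad i).norm r (hs hr)]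
      exact hS.ne i j hij r (hs hr) (this ▸ e.symm)
    · exact fun j => measurableSet_Ioc.image_of_continuousOn_injOn
        (fun r hr => ((hS.rad j).deriv r (hs hr)).continuousAt.continuousWithinAt)
        ((inj_StB (hS.rad j)).mono hs)

end Vale.Agent.P128
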