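import Vale.Agent.P128.RAD.Def
import Vale.Agent.P128.TA1.Arc

/-! P128 RAD/StFlat (TASK, about 130 lines): frozen statement `Star.flat_pt`. Let `p = z j r`, `L = ‖z' j r‖ ≥ 1` (`Rd.rad_gen`). For small `t`: a point of `K ∩ closedBall p t` lies in `closedBall x ρ`, is not `x`, is `z i s` with `|s - r| ≤ t` (`Radial.norm`);
`i = j` because `‖z i s - z i r‖ ≤ 2 t` (`Rd.rad_lip`) and `z i r ≠ z j r`; `‖z j s - z j r‖ ≥ (19/20) L |s - r|` near `r` (`hasDerivAt_iff_isLittleO`), so `|s - r| ≤ δ := 20 t / (19 L)`;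
`‖z' j s‖ ≤ (21/20) L` near `r` (`Rd.rad_cont`), so `arc_up` (TA1/Arc, `σ s = (21/20) L s`, mean value inequality) bounds the length of `z j '' Icc (r - δ) (r + δ)` by `(42/19) t ≤ 2.4 t`. Helper names end with `_StFlat`. -/

namespace Vale.Agent.P128

open MeasureTheory Set Metric Filter Topology
open scoped ENNReal

theorem near_StFlat {x : ℂ} {ρ A α : ℝ} {z z' : ℝ → ℂ} (hα : 0 < α) (hz : Radial x ρ A α z z')
    {r : ℝ} (hr : r ∈ Ioo 0 ρ) : ∃ η > 0, 0 < r - η ∧ r + η < ρ ∧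
      ∀ s ∈ Icc (r - η) (r + η), ∀ s' ∈ Icc (r - η) (r + η),
        19 / 20 * ‖z' r‖ * |s - s'| ≤ ‖z s - z s'‖ ∧ ‖z s - z s'‖ ≤ 21 / 20 * ‖z' r‖ * |s - s'| := by
  have hL := (Rd.rad_gen hz ⟨hr.1, hr.2.le⟩).2
  have hc : ContinuousAt z' r :=
    (Rd.rad_cont hα hz).continuousAt (Ioc_mem_nhds hr.1 hr.2)
  have h1 : ∀ᶠ s in 𝓝 r, dist (z' s) (z' r) < ‖z' r‖ / 20 ∧ s ∈ Ioo 0 ρ :=
    (Metric.tendsto_nhds.1 hc _ (by linarith)).and (Ioo_mem_nhds hr.1 hr.2)
  obtain ⟨η, hη, h2⟩ := Metric.nhds_basis_closedBall.eventually_iff.1 h1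
  rw [Real.closedBall_eq_Icc] at h2
  refine ⟨η, hη, (h2 (x := r - η) ⟨le_rfl, by linarith⟩).2.1,
    (h2 (x := r + η) ⟨by linarith, le_rfl⟩).2.2, fun s hs s' hs' => ?_⟩
  have h3 := (convex_Icc (r - η) (r + η)).norm_image_sub_le_of_norm_hasDerivWithin_le
    (f := fun t : ℝ => z t - t • z' r) (f' := fun t => z' t - z' r) (C := ‖z' r‖ / 20)
    (fun t ht => by
      have h4 := (hz.deriv t ⟨(h2 ht).2.1, (h2 ht).2.2.le⟩).sub
        ((hasDerivAt_id t).smul_const (z' r))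
      rw [one_smul] at h4
      exact h4.hasDerivWithinAt)
    (fun t ht => by rw [← dist_eq_norm]; exact (h2 ht).1.le) hs' hs
  have e : z s - s • z' r - (z s' - s' • z' r) = z s - z s' - (s - s') • z' r := by
    rw [sub_smul]
    abel
  rw [e, Real.norm_eq_abs] at h3
  have h5 := abs_norm_sub_norm_le (z s - z s') ((s - s') • z' r)
  rw [norm_smul, Real.norm_eq_abs, abs_le] at h5
  constructor <;> nlinarith [h5.1, h5.2]

/-- Points of a star other than the centre have length density below `2.5`. -/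
theorem Star.flat_pt {N : ℕ} {K : Set ℂ} {x : ℂ} {ρ A α : ℝ} {z z' : Fin N → ℝ → ℂ}
    (hS : Star N K x ρ A α z z') (j : Fin N) {r : ℝ} (hr : r ∈ Ioo 0 ρ) :
    ∀ᶠ t in 𝓝[>] (0 : ℝ), μH[1] (K ∩ closedBall (z j r) t) ≤ ENNReal.ofReal (2.4 * t) := by
  have hr' : r ∈ Ioc 0 ρ := ⟨hr.1, hr.2.le⟩
  obtain ⟨η, hη, h0, hρ, H⟩ := near_StFlat hS.apos (hS.rad j) hr
  have hL := (Rd.rad_gen (hS.rad j) hr').2
  have h1 : ∀ᶠ t in 𝓝[>] (0 : ℝ), ∀ i, i ≠ j → t < ‖z i r - z j r‖ / 3 := by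
    refine eventually_all.2 fun i => ?_
    by_cases hi : i = j
    · exact Eventually.of_forall fun _ h => absurd hi h
    · have : 0 < ‖z i r - z j r‖ / 3 :=
        div_pos (norm_pos_iff.2 (sub_ne_zero.2 (hS.ne i j hi r hr'))) three_pos
      exact ((gt_mem_nhds this).filter_mono nhdsWithin_le_nhds).mono fun _ h _ => h
  filter_upwards [h1, Ioc_mem_nhdsGT (half_pos hη)] with t ht ht'
  obtain ⟨ht0, htη⟩ := ht'
  set L := ‖z' j r‖ with hLd
  set δ := 20 * t / (19 * L) with hδ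
  have hδL : δ * L = 20 * t / 19 := by
    rw [hδ]
    field_simp
  have hδ0 : 0 < δ := by positivity
  have hδη : δ ≤ η := by nlinarith
  have hp := (hS.rad j).norm r hr'
  have h2 : K ∩ closedBall (z j r) t ⊆ z j '' Icc (r - δ) (r + δ) := by
    rintro w ⟨hw, hw'⟩
    rw [mem_closedBall_iff_norm] at hw'
    have h3 := abs_norm_sub_norm_le (w - x) (z j r - x)
    rw [sub_sub_sub_cancel_right, hp, abs_le] at h3
    have h4 : w ∈ K ∩ closedBall x ρ := ⟨hw, mem_closedBall_iff_norm.2 (by linarith [h3.2])⟩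
    rw [hS.eq] at h4
    rcases h4 with h4 | h4
    · rw [mem_singleton_iff.1 h4, norm_sub_rev, hp] at hw'
      linarith
    · obtain ⟨i, s, hs, rfl⟩ := mem_iUnion.1 h4
      rw [(hS.rad i).norm s hs] at h3
      have h5 : |r - s| ≤ t := abs_le.2 ⟨by linarith [h3.2], by linarith [h3.1]⟩
      by_cases hi : i = j
      · subst hi
        have h6 := (H s ⟨by linarith [h3.1], by linarith [h3.2]⟩ r
          ⟨by linarith, by linarith⟩).1
        have h7 : |s - r| ≤ δ := by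
          refine le_of_mul_le_mul_right ?_ (by linarith : 0 < L)
          nlinarith
        exact ⟨s, ⟨by linarith [(abs_le.1 h7).1], by linarith [(abs_le.1 h7).2]⟩, rfl⟩
      · have h6 := Rd.rad_lip (hS.rad i) hr' hs
        have h7 := norm_sub_le_norm_sub_add_norm_sub (z i r) (z i s) (z j r)
        linarith [ht i hi]
  refine (measure_mono h2).trans ((arc_up (σ := fun s => 21 / 20 * L * s)
    fun s s' h3 h4 h5 => ?_).trans (ENNReal.ofReal_le_ofReal ?_))
  · have h6 := (H s' ⟨by linarith, by linarith⟩ s ⟨by linarith, by linarith⟩).2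
    rw [abs_of_nonneg (by linarith)] at h6
    rw [dist_eq_norm]
    linarith
  · nlinarith

end Vale.Agent.P128
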