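import Vale.Agent.P128.RAD.Def
import Vale.Agent.P128.T.End

/-! P128 RAD/StReg (TASK, about 130 lines): frozen statements `Star.reg`, `Star.mono`.
`reg`: neighbourhood `closedBall x ρ`; `T.end_arc` (T/End) for each curve gives `α₀ j`; take a common `α'` (for `N = 3` the minimum of three); `N = 1`: `ArcEnding`; `N = 3`: `TripleJunction`, the arcs meet only at `x` by `Radial.norm` and `Star.ne`;
`InnerProductGeometry.angle (ρ e i) (ρ e j) = arccos (-1/2) = 2π/3` (`Complex.inner`, `Real.arccos_neg`, `Real.arccos_cos` with `Real.cos_pi_div_three`). Helper names end with `_StReg`. -/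

namespace Vale.Agent.P128

open MeasureTheory Set Metric Filter Topology
open scoped ENNReal

theorem angle_StReg {ρ : ℝ} (hρ : 0 < ρ) {a b : ℂ} (ha : ‖a‖ = 1) (hb : ‖b‖ = 1)
    (h : (a * (starRingEnd ℂ) b).re = -1 / 2) :
    InnerProductGeometry.angle ((ρ : ℂ) * a) ((ρ : ℂ) * b) = 2 * Real.pi / 3 := by
  rw [← Complex.real_smul, ← Complex.real_smul, InnerProductGeometry.angle_smul_left_of_pos _ _ hρ,
    InnerProductGeometry.angle_smul_right_of_pos _ _ hρ, InnerProductGeometry.angle_comm,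
    InnerProductGeometry.angle, Complex.inner, h, ha, hb, mul_one, div_one]
  have e : (-1 / 2 : ℝ) = Real.cos (2 * Real.pi / 3) := by
    rw [show 2 * Real.pi / 3 = Real.pi - Real.pi / 3 by ring, Real.cos_pi_sub,
      Real.cos_pi_div_three]
    norm_num
  rw [e, Real.arccos_cos (by positivity) (by linarith [Real.pi_pos])]

theorem common_StReg {N : ℕ} (a : Fin N → ℝ) (ha : ∀ j, 0 < a j) :
    ∃ b : ℝ, ∀ j, b ∈ Ioc 0 (a j) := by
  have h : ∀ᶠ b in 𝓝[>] (0 : ℝ), ∀ j, b ∈ Ioc 0 (a j) :=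
    eventually_all.2 fun j => Ioc_mem_nhdsGT (ha j)
  exact h.exists

theorem Star.reg {N : ℕ} (hN : N = 1 ∨ N = 3) {Ω K : Set ℂ} {x : ℂ} {ρ A α : ℝ}
    {z z' : Fin N → ℝ → ℂ} (hS : Star N K x ρ A α z z') (hT : Tang N x ρ z)
    (hΩ : closedBall x ρ ⊆ Ω) : Reg Ω K x := by
  obtain ⟨e, β, C, hβ, he, hang, hr⟩ := hT
  choose a ha H using fun j => T.end_arc hS.pos hS.apos hβ (he j) (hS.rad j) (hr j)
  obtain ⟨b, hb⟩ := common_StReg a ha
  choose γ γ' h1 h2 h3 h4 using fun j => H j b (hb j)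
  have hb0 : 0 < b := by
    rcases hN with rfl | rfl
    · exact (hb 0).1
    · exact (hb 0).1
  refine ⟨b, hb0, closedBall x ρ, closedBall_mem_nhds x hS.pos, hΩ, ?_⟩
  rcases hN with rfl | rfl
  · refine Or.inr (Or.inl ⟨γ 0, γ' 0, h1 0, ?_, h2 0⟩)
    rw [hS.eq, h4 0]
    ext w
    simp only [mem_union, mem_singleton_iff, mem_iUnion, mem_insert_iff, Fin.exists_fin_one]
  · refine Or.inr (Or.inr ⟨γ, γ', fun i => ⟨h1 i, h2 i⟩, ?_, fun i j hij => ⟨?_, ?_⟩⟩)
    · rw [hS.eq]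
      ext w
      simp only [h4, mem_union, mem_singleton_iff, mem_iUnion, mem_insert_iff]
      constructor
      · rintro (h | ⟨j, h⟩)
        · exact ⟨0, Or.inl h⟩
        · exact ⟨j, Or.inr h⟩
      · rintro ⟨j, h | h⟩
        · exact Or.inl h
        · exact Or.inr ⟨j, h⟩
    · rw [h4, h4]
      ext w
      simp only [mem_inter_iff, mem_insert_iff, mem_singleton_iff]
      constructor
      · rintro ⟨h | ⟨r, hr1, rfl⟩, h' | ⟨s, hs1, hs⟩⟩
        · exact h
        · exact h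
        · exact h'
        · have e1 := (hS.rad i).norm r hr1
          have e2 := (hS.rad j).norm s hs1
          rw [hs, e1] at e2
          subst e2
          exact absurd hs.symm (hS.ne i j hij r hr1)
      · intro h
        exact ⟨Or.inl h, Or.inl h⟩
    · rw [h3, h3]
      exact angle_StReg hS.pos (he i) (he j) (hang i j hij)

theorem Star.mono {N : ℕ} {K : Set ℂ} {x : ℂ} {ρ A α : ℝ} {z z' : Fin N → ℝ → ℂ}
    (hS : Star N K x ρ A α z z') {ρ' : ℝ} (h0 : 0 < ρ') (h1 : ρ' ≤ ρ) :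
    Star N K x ρ' A α z z' := by
  have hs : Ioc 0 ρ' ⊆ Ioc 0 ρ := Ioc_subset_Ioc_right h1
  refine ⟨h0, hS.apos, fun j => ⟨fun r hr => (hS.rad j).norm r (hs hr),
    fun r hr => (hS.rad j).deriv r (hs hr), fun r hr => (hS.rad j).bound r (hs hr),
    fun r hr => (hS.rad j).holder r (hs hr)⟩, fun i j hij r hr => hS.ne i j hij r (hs hr), ?_⟩
  have e : K ∩ closedBall x ρ' = (K ∩ closedBall x ρ) ∩ closedBall x ρ' := by
    rw [inter_assoc, inter_eq_self_of_subset_right (closedBall_subset_closedBall h1)]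
  rw [e, hS.eq]
  ext w
  simp only [mem_inter_iff, mem_union, mem_singleton_iff, mem_iUnion, mem_closedBall, dist_eq_norm]
  constructor
  · rintro ⟨h | ⟨j, r, hr, rfl⟩, h'⟩
    · exact Or.inl h
    · rw [(hS.rad j).norm r hr] at h'
      exact Or.inr ⟨j, r, ⟨hr.1, h'⟩, rfl⟩
  · rintro (h | ⟨j, r, hr, rfl⟩)
    · refine ⟨Or.inl h, ?_⟩
      rw [h, sub_self, norm_zero]
      exact h0.le
    · refine ⟨Or.inr ⟨j, r, hs hr, rfl⟩, ?_⟩
      rw [(hS.rad j).norm r (hs hr)]
      exact hr.2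

end Vale.Agent.P128
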