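import Vale.Agent.P128.RAD.Def

/-! P128 RAD/StSep (TASK, about 200 lines): frozen statement `Star.sep`. Let `j₀ = ⟨0, hN⟩`, `ang p r = Complex.arg (-(p - x) / (z j₀ r - x))`, `a w = ang w ‖w - x‖`, `b j r = ang (z j r) r` (`b j₀ r = π`),
`κ w = ∑ j, if b j ‖w - x‖ < a w then 1 else 0` (or the cardinality of the filter). For `‖p - x‖ = r ∈ Ioc 0 ρ`: `p = x - (z j₀ r - x) exp (ang p r * I)`, so `ang · r` is injective on the sphere; if `p ≠ z j₀ r` the quotient lies in `Complex.slitPlane` (norm one, not `-1`), `Complex.continuousAt_arg`.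
`LC`: at `w ∈ ball x ρ \ K` (`w ≠ x` as `x ∈ K`; `z j r ∈ K` by `Star.eq`) `a` and each `b j ‖· - x‖` are continuous at `w` (`b j₀` is locally constant) and `a w ≠ b j ‖w - x‖`.
`SepArcs`: for `a p ≤ a q` the filters are nested with equal cardinality, hence equal, so no `b j s` lies in `[a p, a q]`; join by `θ ↦ x - (z j₀ s - x) exp (θ I)`, `θ ∈ [a p, a q] ⊆ (-π, π]` (`Complex.arg_cos_add_sin_mul_I` or `Complex.arg_exp_mul_I`, `JoinedIn.ofLine` or `IsPathConnected` of an image). Helper names end with `_StSep`. -/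

namespace Vale.Agent.P128

open MeasureTheory Set Metric Filter Topology
open scoped ENNReal

/-- The angle of `p` measured from the point opposite to `c`. -/
noncomputable def ang_StSep (x c p : ℂ) : ℝ := Complex.arg (-(p - x) / (c - x))

/-- The point with a given angle. -/
noncomputable def pt_StSep (x c : ℂ) (θ : ℝ) : ℂ := x - (c - x) * Complex.exp (θ * Complex.I)

theorem pt_ang_StSep {x c p : ℂ} (hc : c - x ≠ 0) (h : ‖p - x‖ = ‖c - x‖) :
    pt_StSep x c (ang_StSep x c p) = p := by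
  have h1 := Complex.norm_mul_exp_arg_mul_I (-(p - x) / (c - x))
  rw [norm_div, norm_neg, h, div_self (norm_ne_zero_iff.2 hc), Complex.ofReal_one, one_mul] at h1
  rw [pt_StSep, ang_StSep, h1]
  field_simp
  ring

theorem ang_pt_StSep {x c : ℂ} (hc : c - x ≠ 0) {θ : ℝ} (h : θ ∈ Ioc (-Real.pi) Real.pi) :
    ang_StSep x c (pt_StSep x c θ) = θ := by
  have e : -(pt_StSep x c θ - x) / (c - x) = Complex.exp (θ * Complex.I) := by
    rw [pt_StSep]
    field_simp
    ring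
  rw [ang_StSep, e, Complex.exp_mul_I, Complex.arg_cos_add_sin_mul_I h]

theorem norm_pt_StSep (x c : ℂ) (θ : ℝ) : ‖pt_StSep x c θ - x‖ = ‖c - x‖ := by
  rw [pt_StSep, sub_sub_cancel_left, norm_neg, norm_mul, Complex.norm_exp_ofReal_mul_I, mul_one]

theorem ang_inj_StSep {x c p q : ℂ} (hc : c - x ≠ 0) (hp : ‖p - x‖ = ‖c - x‖)
    (hq : ‖q - x‖ = ‖c - x‖) (h : ang_StSep x c p = ang_StSep x c q) : p = q := by
  rw [← pt_ang_StSep hc hp, h, pt_ang_StSep hc hq]

theorem ang_self_StSep {x c : ℂ} (hc : c - x ≠ 0) : ang_StSep x c c = Real.pi := by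
  rw [ang_StSep, neg_div, div_self hc, Complex.arg_neg_one]

theorem cont_StSep {x w : ℂ} {C P : ℂ → ℂ} (hC : ContinuousAt C w) (hP : ContinuousAt P w)
    (hc : C w - x ≠ 0) (hp : ‖P w - x‖ = ‖C w - x‖) (hne : P w ≠ C w) :
    ContinuousAt (fun q => ang_StSep x (C q) (P q)) w := by
  refine ContinuousAt.comp (f := fun q => -(P q - x) / (C q - x)) (Complex.continuousAt_arg
    (Complex.mem_slitPlane_iff_arg.2 ⟨fun h => ?_, ?_⟩))
    ((hP.sub continuousAt_const).neg.div (hC.sub continuousAt_const) hc)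
  · exact hne (ang_inj_StSep hc hp rfl (h.trans (ang_self_StSep hc).symm))
  · exact div_ne_zero (neg_ne_zero.2 (norm_ne_zero_iff.1 (hp ▸ norm_ne_zero_iff.2 hc))) hc

theorem lt_StSep {f g : ℂ → ℝ} {w : ℂ} (hf : ContinuousAt f w) (hg : ContinuousAt g w)
    (h : f w ≠ g w) : ∀ᶠ q in 𝓝 w, (f q < g q ↔ f w < g w) := by
  rcases h.lt_or_gt with h | h
  · filter_upwards [hf.eventually_lt hg h] with q hq using iff_of_true hq h
  · filter_upwards [hg.eventually_lt hf h] with q hq using iff_of_false hq.not_gt h.not_gt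

section

variable {N : ℕ} {K : Set ℂ} {x : ℂ} {ρ A α : ℝ} {z z' : Fin N → ℝ → ℂ}

theorem mem_StSep (hS : Star N K x ρ A α z z') (j : Fin N) {r : ℝ} (hr : r ∈ Ioc 0 ρ) :
    z j r ∈ K :=
  (hS.eq.ge (Or.inr (mem_iUnion.2 ⟨j, r, hr, rfl⟩))).1

theorem ne_StSep (hS : Star N K x ρ A α z z') (j : Fin N) {r : ℝ} (hr : r ∈ Ioc 0 ρ) :
    z j r - x ≠ 0 := by
  rw [← norm_pos_iff, (hS.rad j).norm r hr]
  exact hr.1

theorem angne_StSep (hS : Star N K x ρ A α z z') (i j : Fin N) {p : ℂ} (hp : p ∉ K)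
    (hr : ‖p - x‖ ∈ Ioc 0 ρ) :
    ang_StSep x (z i ‖p - x‖) (z j ‖p - x‖) ≠ ang_StSep x (z i ‖p - x‖) p := fun h =>
  hp (ang_inj_StSep (ne_StSep hS i hr) (by rw [(hS.rad i).norm _ hr, (hS.rad j).norm _ hr])
    ((hS.rad i).norm _ hr).symm h ▸ mem_StSep hS j hr)

theorem lc_StSep (hS : Star N K x ρ A α z z') (i j : Fin N) {w : ℂ} (hw : w ∈ ball x ρ \ K) :
    ∀ᶠ q in 𝓝 w, (ang_StSep x (z i ‖q - x‖) (z j ‖q - x‖) < ang_StSep x (z i ‖q - x‖) q ↔
      ang_StSep x (z i ‖w - x‖) (z j ‖w - x‖) < ang_StSep x (z i ‖w - x‖) w) := by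
  have hx : w ≠ x := fun h => hw.2 (h ▸ (hS.eq.ge (Or.inl rfl)).1)
  have h0 : ‖w - x‖ ∈ Ioo 0 ρ := ⟨norm_pos_iff.2 (sub_ne_zero.2 hx), mem_ball_iff_norm.1 hw.1⟩
  have hr := Ioo_subset_Ioc_self h0
  have hn : ContinuousAt (fun q : ℂ => ‖q - x‖) w := by fun_prop
  have hz : ∀ k, ContinuousAt (fun q : ℂ => z k ‖q - x‖) w := fun k =>
    ContinuousAt.comp (f := fun q : ℂ => ‖q - x‖) ((hS.rad k).deriv _ hr).continuousAt hn
  refine lt_StSep ?_ (cont_StSep (hz i) continuousAt_id (ne_StSep hS i hr)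
    ((hS.rad i).norm _ hr).symm fun h => hw.2 ?_) (angne_StSep hS i j hw.2 hr)
  · by_cases h : j = i
    · subst h
      refine (continuousAt_const (y := Real.pi)).congr ?_
      filter_upwards [hn.eventually (isOpen_Ioo.mem_nhds h0)] with q hq
      exact (ang_self_StSep (ne_StSep hS j (Ioo_subset_Ioc_self hq))).symm
    · exact cont_StSep (hz i) (hz j) (ne_StSep hS i hr)
        (by rw [(hS.rad i).norm _ hr, (hS.rad j).norm _ hr]) (hS.ne j i h _ hr)
  · rw [show w = z i ‖w - x‖ from h]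
    exact mem_StSep hS i hr

theorem join_StSep (hS : Star N K x ρ A α z z') (i : Fin N) {s : ℝ} (hs : s ∈ Ioc 0 ρ) {p q : ℂ}
    (hp : p ∈ sphere x s \ K) (hq : q ∈ sphere x s \ K)
    (hle : ang_StSep x (z i s) p ≤ ang_StSep x (z i s) q)
    (h : ∑ j, (if ang_StSep x (z i s) (z j s) < ang_StSep x (z i s) p then (1 : ℝ) else 0) =
      ∑ j, if ang_StSep x (z i s) (z j s) < ang_StSep x (z i s) q then (1 : ℝ) else 0) :
    JoinedIn (sphere x s \ K) p q := by
  have hp1 := mem_sphere_iff_norm.1 hp.1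
  have hq1 := mem_sphere_iff_norm.1 hq.1
  have hc := ne_StSep hS i hs
  have hn := (hS.rad i).norm s hs
  have h1 := (Finset.sum_eq_sum_iff_of_le fun j _ => by
    split_ifs with a b
    · exact le_rfl
    · exact absurd (a.trans_le hle) b
    · exact zero_le_one
    · exact le_rfl).1 h
  have hcont : Continuous (pt_StSep x (z i s)) := by
    unfold pt_StSep
    fun_prop
  have h2 := (((convex_Icc _ _).isPathConnected (nonempty_Icc.2 hle)).image hcont).joinedIn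
    _ (mem_image_of_mem _ (left_mem_Icc.2 hle)) _ (mem_image_of_mem _ (right_mem_Icc.2 hle))
  rw [pt_ang_StSep hc (hp1.trans hn.symm), pt_ang_StSep hc (hq1.trans hn.symm)] at h2
  refine h2.mono ?_
  rintro _ ⟨θ, hθ, rfl⟩
  have h3 := (norm_pt_StSep x (z i s) θ).trans hn
  refine ⟨mem_sphere_iff_norm.2 h3, fun hK => ?_⟩
  rcases hS.eq.le ⟨hK, mem_closedBall_iff_norm.2 (h3.trans_le hs.2)⟩ with e | e
  · rw [show pt_StSep x (z i s) θ = x from e, sub_self, norm_zero] at h3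
    exact hs.1.ne h3
  · obtain ⟨j, r, hr, e⟩ := mem_iUnion.1 e
    obtain rfl : r = s := by rw [← (hS.rad j).norm r hr, e, h3]
    have h4 : ang_StSep x (z i r) (z j r) = θ := by
      rw [e, ang_pt_StSep hc ⟨(Complex.neg_pi_lt_arg _).trans_le hθ.1,
        hθ.2.trans (Complex.arg_le_pi _)⟩]
    have h5 := angne_StSep hS i j hq.2 (hq1.symm ▸ hr)
    have h6 := h1 j (Finset.mem_univ j)
    rw [hq1, h4] at h5
    rw [h4, if_neg hθ.1.not_gt, if_pos (hθ.2.lt_of_ne h5)] at h6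
    exact zero_ne_one h6

end

/-- The curves of a star separate the sectors. -/
theorem Star.sep {N : ℕ} (hN : 0 < N) {K : Set ℂ} {x : ℂ} {ρ A α : ℝ} {z z' : Fin N → ℝ → ℂ}
    (hS : Star N K x ρ A α z z') :
    ∃ κ : ℂ → ℝ, LC (ball x ρ \ K) κ ∧ ∀ s ∈ Ioo 0 ρ, SepArcs K κ x s := by
  refine ⟨fun w => ∑ j, if ang_StSep x (z ⟨0, hN⟩ ‖w - x‖) (z j ‖w - x‖) <
    ang_StSep x (z ⟨0, hN⟩ ‖w - x‖) w then 1 else 0, fun w hw => ?_, fun s hs p hp q hq h => ?_⟩
  · filter_upwards [eventually_all.2 fun j => lc_StSep hS ⟨0, hN⟩ j hw] with q hq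
    exact Finset.sum_congr rfl fun j _ => if_congr (hq j) rfl rfl
  · simp only [mem_sphere_iff_norm.1 hp.1, mem_sphere_iff_norm.1 hq.1] at h
    rcases le_total (ang_StSep x (z ⟨0, hN⟩ s) p) (ang_StSep x (z ⟨0, hN⟩ s) q) with hle | hle
    · exact join_StSep hS _ (Ioo_subset_Ioc_self hs) hp hq hle h
    · exact (join_StSep hS _ (Ioo_subset_Ioc_self hs) hq hp hle h.symm).symm

end Vale.Agent.P128
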