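import Vale.Agent.P128.RAD.Gr0

/-! P128 RAD/Est (TASK, about 130 lines): estimates. `quot_est`: with `m, m'` the two real parts, `v/m - v'/m' = (v - v')/m + v' (m' - m)/(m m')`, `|m - m'| ≤ ‖v - v'‖ + 2 ‖n - n'‖`.
`unit_est`: `p/‖p‖ - q/‖q‖ = (p - q)/‖p‖ + q (‖q‖ - ‖p‖)/(‖p‖ ‖q‖)`. `norm_deriv`: `HasDerivAt.norm_sq` and `HasDerivAt.sqrt`, `Complex.inner`.
`arm_est`: `p = crv s - x = (y - x) + (crv s - crv 0)`, `‖crv s - crv 0‖ ≤ 0.101 d`; `(v conj p).re ≥ 0.9 d - d / 100 - 1.01 * 0.101 d`, `‖p‖ ≤ 1.101 d` (RAD/Gr0: `crv_sub`, `crv_zero`, `crv'_bound`). Helper names end with `_Est`. -/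

namespace Vale.Agent.P128.Rd

open MeasureTheory Set Metric Filter Topology
open scoped ENNReal ComplexConjugate

theorem div_Est (v v' : ℂ) {m m' : ℝ} (hm : 0 < m) (hm' : 0 < m') :
    ‖v / (m : ℂ) - v' / (m' : ℂ)‖ ≤ ‖v - v'‖ / m + ‖v'‖ * |m - m'| / (m * m') := by
  have a : (m : ℂ) ≠ 0 := Complex.ofReal_ne_zero.2 hm.ne'
  have a' : (m' : ℂ) ≠ 0 := Complex.ofReal_ne_zero.2 hm'.ne'
  have e : v / (m : ℂ) - v' / (m' : ℂ) =
      (v - v') / (m : ℂ) - v' * ((m - m' : ℝ) : ℂ) / ((m * m' : ℝ) : ℂ) := by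
    push_cast
    field_simp
    ring
  rw [e]
  refine (norm_sub_le _ _).trans_eq ?_
  simp only [norm_div, norm_mul, Complex.norm_real, Real.norm_eq_abs, abs_of_pos hm,
    abs_of_pos hm']

theorem re_Est (v p : ℂ) : |(v * conj p).re| ≤ ‖v‖ * ‖p‖ := by
  have := Complex.abs_re_le_norm (v * conj p)
  rwa [norm_mul, Complex.norm_conj] at this

theorem rediv_Est (v p : ℂ) (m : ℝ) : (v * conj (p / (m : ℂ))).re = (v * conj p).re / m := by
  rw [map_div₀, Complex.conj_ofReal, ← mul_div_assoc, Complex.div_ofReal_re]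

theorem quot_est {v v' n n' : ℂ} (hv' : ‖v'‖ ≤ 2) (hn : ‖n‖ ≤ 1)
    (hm : 1 / 2 ≤ (v * conj n).re) (hm' : 1 / 2 ≤ (v' * conj n').re) :
    ‖v / (((v * conj n).re : ℝ) : ℂ) - v' / (((v' * conj n').re : ℝ) : ℂ)‖ ≤
      10 * ‖v - v'‖ + 16 * ‖n - n'‖ := by
  have e : (v * conj n).re - (v' * conj n').re =
      ((v - v') * conj n).re + (v' * conj (n - n')).re := by
    simp only [map_sub, sub_mul, mul_sub, Complex.sub_re]
    ring
  have h1 : |(v * conj n).re - (v' * conj n').re| ≤ ‖v - v'‖ + 2 * ‖n - n'‖ := by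
    rw [e]
    refine (abs_add_le _ _).trans (add_le_add ((re_Est _ _).trans ?_) ((re_Est _ _).trans ?_))
    · exact mul_le_of_le_one_right (norm_nonneg _) hn
    · exact mul_le_mul_of_nonneg_right hv' (norm_nonneg _)
  generalize (v * conj n).re = m at *
  generalize (v' * conj n').re = m' at *
  have m0 : 0 < m := by linarith
  have m0' : 0 < m' := by linarith
  refine (div_Est v v' m0 m0').trans ?_
  have h2 : ‖v - v'‖ / m ≤ 2 * ‖v - v'‖ := by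
    rw [div_le_iff₀ m0]
    nlinarith [norm_nonneg (v - v')]
  have h3 : ‖v'‖ * |m - m'| / (m * m') ≤ 2 * (‖v - v'‖ + 2 * ‖n - n'‖) / (1 / 2 * (1 / 2)) :=
    div_le_div₀ (by positivity) (mul_le_mul hv' h1 (abs_nonneg _) zero_le_two) (by norm_num)
      (mul_le_mul hm hm' (by norm_num) m0.le)
  have h4 : 2 * (‖v - v'‖ + 2 * ‖n - n'‖) / (1 / 2 * (1 / 2)) = 8 * ‖v - v'‖ + 16 * ‖n - n'‖ := by
    ring
  linarith

theorem unit_est {p q : ℂ} (hp : p ≠ 0) (hq : q ≠ 0) :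
    ‖p / ((‖p‖ : ℝ) : ℂ) - q / ((‖q‖ : ℝ) : ℂ)‖ ≤ 2 * ‖p - q‖ / ‖p‖ := by
  have p0 := norm_pos_iff.2 hp
  have q0 := norm_pos_iff.2 hq
  refine (div_Est p q p0 q0).trans ?_
  have h1 : ‖q‖ * |‖p‖ - ‖q‖| / (‖p‖ * ‖q‖) = |‖p‖ - ‖q‖| / ‖p‖ := by field_simp
  have h2 : |‖p‖ - ‖q‖| / ‖p‖ ≤ ‖p - q‖ / ‖p‖ :=
    div_le_div_of_nonneg_right (abs_norm_sub_norm_le p q) p0.le
  rw [h1, two_mul, add_div]
  linarith

theorem norm_deriv {Γ : ℝ → ℂ} {v x : ℂ} {s : ℝ} (h : HasDerivAt Γ v s) (h0 : Γ s - x ≠ 0) :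
    HasDerivAt (fun t => ‖Γ t - x‖) (v * conj ((Γ s - x) / ((‖Γ s - x‖ : ℝ) : ℂ))).re s := by
  have p0 := norm_pos_iff.2 h0
  have h1 := (h.sub_const x).norm_sq.sqrt (pow_pos p0 2).ne'
  simp only [Real.sqrt_sq (norm_nonneg _)] at h1
  refine h1.congr_deriv ?_
  rw [rediv_Est, Complex.inner]
  field_simp

theorem arm_est {K : Set ℂ} {x y e : ℂ} {τ A α d : ℝ} {φ φ' : ℝ → ℝ} (hτ : 0 < τ)
    (hτ1 : τ ≤ 1 / 10) (hd : 0 < d) (hy : ‖y - x‖ = d) (hG : Graph K y e (τ * d) A α d φ φ')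
    (he : 9 / 10 * d ≤ (e * conj (y - x)).re) {s : ℝ} (hs : s ∈ Icc (-(τ * d)) (τ * d)) :
    4 / 5 * d ≤ ‖crv y e φ s - x‖ ∧ 2 / 3 ≤
      (crv' e φ' s * conj ((crv y e φ s - x) / ((‖crv y e φ s - x‖ : ℝ) : ℂ))).re := by
  have h0 : (0 : ℝ) ∈ Icc (-(τ * d)) (τ * d) := by
    have := mul_pos hτ hd
    constructor <;> linarith
  have hs1 : |s| ≤ 1 / 10 * d := (abs_le.2 hs).trans (mul_le_mul_of_nonneg_right hτ1 hd.le)
  have hw := (crv_sub hG hs h0).2.1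
  rw [crv_zero hG, sub_zero] at hw
  obtain ⟨b1, -, b2⟩ := crv'_bound hG hs
  have e1 : crv y e φ s - x = (y - x) + (crv y e φ s - y) := by ring
  rw [e1]
  clear e1
  generalize crv y e φ s - y = w at *
  generalize crv' e φ' s = v at *
  generalize y - x = q at *
  have hw' : ‖w‖ ≤ 101 / 1000 * d := by linarith
  have n1 : ‖q + w‖ ≤ 1101 / 1000 * d := by linarith [norm_add_le q w]
  have n2 : 4 / 5 * d ≤ ‖q + w‖ := by
    have := norm_sub_le (q + w) w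
    rw [add_sub_cancel_right] at this
    linarith
  refine ⟨n2, ?_⟩
  rw [rediv_Est, le_div_iff₀ (by linarith)]
  have e2 : (v * conj (q + w)).re = (e * conj q).re + ((v - e) * conj q).re + (v * conj w).re := by
    simp only [map_add, sub_mul, mul_add, Complex.sub_re, Complex.add_re]
    ring
  have c1 := (abs_le.1 ((re_Est (v - e) q).trans
    (mul_le_mul b1 hy.le (norm_nonneg _) (by norm_num)))).1
  have c2 := (abs_le.1 ((re_Est v w).trans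
    (mul_le_mul b2 hw' (norm_nonneg _) (by norm_num)))).1
  rw [e2]
  linarith

end Vale.Agent.P128.Rd
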