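import Vale.Agent.P128.RAD.Inv
import Vale.Agent.P128.RAD.Est

/-! P128 RAD/Arm (TASK, about 150 lines): a graph with almost radial direction is a local branch. `Γ = crv y e φ`, `g s = ‖Γ s - x‖`, `g' s = (crv' e φ' s * conj n s).re` with `n s = (Γ s - x) / ‖Γ s - x‖` (`norm_deriv`, `arm_est`), `h = τ d`, `g 0 = d`;
`σ` from `exists_inv`; `ζ = Γ ∘ σ`, `ζ' r = crv' e φ' (σ r) / g' (σ r)` (`HasDerivAt.scomp`); the window `[d - τ/4 d, d + τ/4 d]` is `[g 0 - h/4, g 0 + h/4]`. Bound: `1.01 * 3/2 ≤ 2`.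
Hoelder: `quot_est`, `crv'_sub`, `Graph.holder` give `‖v - v'‖ ≤ |A| (2 q)^α ≤ 2 |A| q^α` with `q = |r - r'| / d ≤ 1`, `2^α ≤ 2`; `unit_est`, `crv_sub` give `‖n - n'‖ ≤ 6 q ≤ 6 q^α` (`Real.rpow_le_rpow_of_exponent_ge'`, `Real.rpow_one`).
`uniq`: `crv_of_mem` gives `w = Γ s`, and `σ (g s) = s`. Helper names end with `_Arm`. -/

namespace Vale.Agent.P128.Rd

open MeasureTheory Set Metric Filter Topology
open scoped ENNReal ComplexConjugate

theorem hold_Arm {A α a q : ℝ} (hα : 0 < α) (hα1 : α ≤ 1) (ha : 0 ≤ a) (hq : 0 ≤ q)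
    (h : a ≤ 2 * q) : A * a ^ α ≤ 2 * |A| * q ^ α := by
  have h1 : a ^ α ≤ (2 * q) ^ α := Real.rpow_le_rpow ha h hα.le
  rw [Real.mul_rpow (by norm_num) hq] at h1
  have h2 : (2 : ℝ) ^ α ≤ 2 ^ (1 : ℝ) := Real.rpow_le_rpow_of_exponent_le (by norm_num) hα1
  rw [Real.rpow_one] at h2
  have h3 : a ^ α ≤ 2 * q ^ α :=
    h1.trans (mul_le_mul_of_nonneg_right h2 (Real.rpow_nonneg hq _))
  calc A * a ^ α ≤ |A| * (2 * q ^ α) :=
        mul_le_mul (le_abs_self A) h3 (Real.rpow_nonneg ha _) (abs_nonneg A)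
    _ = 2 * |A| * q ^ α := by ring

theorem graph_loc {K : Set ℂ} {x y e : ℂ} {τ A α d : ℝ} {φ φ' : ℝ → ℝ} (hτ : 0 < τ)
    (hτ1 : τ ≤ 1 / 10) (hα : 0 < α) (hα1 : α ≤ 1) (hd : 0 < d) (hy : ‖y - x‖ = d)
    (hG : Graph K y e (τ * d) A α d φ φ') (he : 9 / 10 * d ≤ (e * conj (y - x)).re) :
    ∃ ζ ζ' : ℝ → ℂ, Loc K x y d (τ / 4) (20 * |A| + 100) α ζ ζ' := by
  have hh : 0 < τ * d := mul_pos hτ hd
  have hE := fun s hs => arm_est hτ hτ1 hd hy hG he (s := s) hs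
  have hne : ∀ s ∈ Icc (-(τ * d)) (τ * d), crv y e φ s - x ≠ 0 := fun s hs =>
    norm_pos_iff.1 (by linarith [(hE s hs).1])
  obtain ⟨σ, s1, s2, s3⟩ := exists_inv (g := fun s => ‖crv y e φ s - x‖)
    (g' := fun s => (crv' e φ' s * conj ((crv y e φ s - x) / ((‖crv y e φ s - x‖ : ℝ) : ℂ))).re) hh
    (fun s hs => norm_deriv (crv_deriv hG hs) (hne s hs)) fun s hs => by linarith [(hE s hs).2]
  have e0 : ‖crv y e φ 0 - x‖ = d := by rw [crv_zero hG, hy]
  have e1 : τ * d / 4 = τ / 4 * d := by ring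
  simp only [e0, e1] at s2 s3
  refine ⟨fun r => crv y e φ (σ r), fun r => crv' e φ' (σ r) / (((crv' e φ' (σ r) *
    conj ((crv y e φ (σ r) - x) / ((‖crv y e φ (σ r) - x‖ : ℝ) : ℂ))).re : ℝ) : ℂ),
    ?_, fun r hr => ⟨crv_mem hG (s2 r hr).1, (s2 r hr).2.1⟩, fun r hr => ?_, fun r hr => ?_,
    fun r hr r' hr' => ?_, fun w hw hwy => ?_⟩
  · have h := s1 0 ⟨by linarith, hh.le⟩
    simp only [e0] at h
    simp only [h, crv_zero hG]
  · have h := (crv_deriv hG (s2 r hr).1).scomp r (s2 r hr).2.2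
    rw [Complex.real_smul, Complex.ofReal_inv, mul_comm, ← div_eq_mul_inv] at h
    exact h
  · have h1 := (hE _ (s2 r hr).1).2
    have h2 := (crv'_bound hG (s2 r hr).1).2.2
    rw [norm_div, Complex.norm_real, Real.norm_eq_abs, abs_of_pos (by linarith),
      div_le_iff₀ (by linarith)]
    linarith
  · have a1 := (s2 r hr).1
    have a2 := (s2 r' hr').1
    have hq : 0 ≤ |r - r'| / d := by positivity
    have hq1 : |r - r'| / d ≤ 1 := by
      rw [div_le_one hd, abs_le]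
      have : τ / 4 * d ≤ 1 / 10 / 4 * d := by gcongr
      constructor <;> linarith [hr.1, hr.2, hr'.1, hr'.2]
    have hs := s3 r hr r' hr'
    have h1 := quot_est (v := crv' e φ' (σ r)) (v' := crv' e φ' (σ r'))
      (n := (crv y e φ (σ r) - x) / ((‖crv y e φ (σ r) - x‖ : ℝ) : ℂ))
      (n' := (crv y e φ (σ r') - x) / ((‖crv y e φ (σ r') - x‖ : ℝ) : ℂ))
      (by linarith [(crv'_bound hG a2).2.2])
      (by rw [norm_div, Complex.norm_real, norm_norm]; exact div_self_le_one _)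
      (by linarith [(hE _ a1).2]) (by linarith [(hE _ a2).2])
    have h2 : ‖crv' e φ' (σ r) - crv' e φ' (σ r')‖ ≤ 2 * |A| * (|r - r'| / d) ^ α := by
      rw [crv'_sub hG]
      refine (hG.holder _ a1 _ a2).trans (hold_Arm hα hα1 (by positivity) hq ?_)
      rw [← mul_div_assoc]
      exact div_le_div_of_nonneg_right hs hd.le
    have h3 := unit_est (hne _ a1) (hne _ a2)
    rw [sub_sub_sub_cancel_right] at h3
    have h4 : 2 * ‖crv y e φ (σ r) - crv y e φ (σ r')‖ / ‖crv y e φ (σ r) - x‖ ≤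
        6 * (|r - r'| / d) := by
      have b1 := (hE _ a1).1
      have b2 := (crv_sub hG a1 a2).2.1
      rw [div_le_iff₀ (by linarith)]
      have b3 : 6 * (|r - r'| / d) * (4 / 5 * d) ≤ 6 * (|r - r'| / d) * ‖crv y e φ (σ r) - x‖ :=
        mul_le_mul_of_nonneg_left b1 (by positivity)
      have b4 : 6 * (|r - r'| / d) * (4 / 5 * d) = 24 / 5 * |r - r'| := by
        field_simp
        ring
      linarith [abs_nonneg (r - r')]
    have h5 : (|r - r'| / d) ^ (1 : ℝ) ≤ (|r - r'| / d) ^ α :=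
      Real.rpow_le_rpow_of_exponent_ge' hq hq1 hα.le hα1
    rw [Real.rpow_one] at h5
    have h6 : (20 * |A| + 100) * (|r - r'| / d) ^ α =
        10 * (2 * |A| * (|r - r'| / d) ^ α) + 100 * (|r - r'| / d) ^ α := by ring
    linarith
  · obtain ⟨s, hs, -, rfl⟩ := crv_of_mem hG hw (by linarith)
    simp only [s1 s hs]

end Vale.Agent.P128.Rd
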