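import Vale.Agent.P128.RAD.Cone

/-! P128 RAD/Count (TASK, about 140 lines): `K` has exactly `N` points on the circle of radius `R = 3/2 ρ`. `c j = x + R (e rt^j)` is a cone point in `closedBall x (3ρ)`, `w j ∈ K` with `dist (c j) (w j) ≤ 3 η ρ` (so `0 ≤ η`), `d j = ‖w j - x‖ ∈ [R - 3ηρ, R + 3ηρ]`;
local branch `ζ j` at `w j`, `R` is in its window, `y j = ζ j R`, `‖y j - w j‖ ≤ 2 |R - d j|` (mean value inequality on the window, `Loc.self`), so `‖y j - c j‖ ≤ 9 η ρ ≤ 0.45 ρ`; injective by `ray_far` (`‖c i - c j‖ ≥ R`).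
For `w ∈ K` on the circle: a cone point `x + t (e rt^j)` (`cone_iff`) within `3ηρ`, `|t - R| ≤ 3ηρ` (`ray_norm`), `‖w - w j‖ ≤ 9 η ρ ≤ σ d j`, so `w = ζ j R` by `Loc.uniq`. Helper names end with `_Cnt`. -/

namespace Vale.Agent.P128.Rd

open MeasureTheory Set Metric Filter Topology
open scoped ENNReal ComplexConjugate

theorem lip_Cnt {K : Set ℂ} {x y : ℂ} {d σ A α r : ℝ} {ζ ζ' : ℝ → ℂ} (h : Loc K x y d σ A α ζ ζ')
    (hr : r ∈ Icc (d - σ * d) (d + σ * d)) : ‖ζ r - y‖ ≤ 2 * |r - d| := by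
  have hd : d ∈ Icc (d - σ * d) (d + σ * d) := ⟨by linarith [hr.1, hr.2], by linarith [hr.1, hr.2]⟩
  have := (convex_Icc (d - σ * d) (d + σ * d)).norm_image_sub_le_of_norm_hasDerivWithin_le
    (f := ζ) (f' := ζ') (C := 2) (fun t ht => (h.deriv t ht).hasDerivWithinAt) h.bound hd hr
  rw [h.self] at this
  simpa [Real.norm_eq_abs] using this

theorem nrm_Cnt {x v : ℂ} (hv : ‖v‖ = 1) {t : ℝ} (ht : 0 ≤ t) : ‖x + t * v - x‖ = t := by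
  rw [add_sub_cancel_left, norm_mul, hv, Complex.norm_real, Real.norm_eq_abs, abs_of_nonneg ht,
    mul_one]

theorem nrm2_Cnt {x v : ℂ} (hv : ‖v‖ = 1) (s t : ℝ) : ‖x + s * v - (x + t * v)‖ = |s - t| := by
  have : x + s * v - (x + t * v) = ((s - t : ℝ) : ℂ) * v := by push_cast; ring
  rw [this, norm_mul, hv, Complex.norm_real, Real.norm_eq_abs, mul_one]

theorem abs_Cnt (x a b : ℂ) : |‖a - x‖ - ‖b - x‖| ≤ ‖a - b‖ := by
  have := abs_norm_sub_norm_le (a - x) (b - x)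
  rwa [sub_sub_sub_cancel_right] at this

theorem count {N : ℕ} (hN : N = 1 ∨ N = 3) {K : Set ℂ} {x e : ℂ} {ρ σ η A α : ℝ} (hσ : 0 < σ)
    (hσ1 : σ ≤ 1 / 2) (hη : η ≤ σ / 10) (hρ : 0 < ρ) (hL : HasLoc K x (2 * ρ) σ A α)
    (hC : Close N η K x (3 * ρ) e) :
    ∃ y : Fin N → ℂ, Function.Injective y ∧ (∀ j, y j ∈ K ∧ ‖y j - x‖ = 3 / 2 * ρ) ∧
      ∀ w ∈ K, ‖w - x‖ = 3 / 2 * ρ → ∃ j, y j = w := by
  obtain ⟨he, hC1, hC2⟩ := hC
  obtain ⟨R, hR⟩ : ∃ R : ℝ, R = 3 / 2 * ρ := ⟨_, rfl⟩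
  obtain ⟨E, hE⟩ : ∃ E : ℝ, E = η * (3 * ρ) := ⟨_, rfl⟩
  rw [← hE] at hC1 hC2
  rw [← hR]
  have hR0 : 0 < R := by rw [hR]; positivity
  have hσρ : 0 < σ * ρ := mul_pos hσ hρ
  have hE1 : E ≤ 3 / 10 * (σ * ρ) := by rw [hE]; nlinarith
  have hσρ1 : σ * ρ ≤ ρ / 2 := by nlinarith
  have hv : ∀ j : Fin N, ‖e * rt N ^ (j : ℕ)‖ = 1 := fun j => ray_norm N he j
  have hw : ∀ j : Fin N, ∃ w ∈ K, dist (x + R * (e * rt N ^ (j : ℕ))) w ≤ E := fun j =>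
    hC2 _ ⟨(cone_iff hN x e _).2 ⟨j, R, hR0.le, rfl⟩, by
      rw [mem_closedBall, dist_eq_norm, nrm_Cnt (hv j) hR0.le]; linarith⟩
  choose w hwK hwd using hw
  have hd : ∀ j, |R - ‖w j - x‖| ≤ E := fun j => by
    have h1 := abs_Cnt x (x + R * (e * rt N ^ (j : ℕ))) (w j)
    rw [nrm_Cnt (hv j) hR0.le] at h1
    exact h1.trans (by rw [← dist_eq_norm]; exact hwd j)
  have hd1 : ∀ j, ρ ≤ ‖w j - x‖ := fun j => by linarith [(abs_le.1 (hd j)).2]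
  have hd2 : ∀ j, σ * ρ ≤ σ * ‖w j - x‖ := fun j => mul_le_mul_of_nonneg_left (hd1 j) hσ.le
  have hloc : ∀ j, ∃ ζ ζ' : ℝ → ℂ, Loc K x (w j) ‖w j - x‖ σ A α ζ ζ' := fun j =>
    hL (w j) (hwK j) ⟨by linarith [hd1 j], by linarith [(abs_le.1 (hd j)).1]⟩
  choose ζ ζ' hζ using hloc
  have hwin : ∀ j, R ∈ Icc (‖w j - x‖ - σ * ‖w j - x‖) (‖w j - x‖ + σ * ‖w j - x‖) := fun j =>
    ⟨by linarith [(abs_le.1 (hd j)).1, hd2 j], by linarith [(abs_le.1 (hd j)).2, hd2 j]⟩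
  have hy : ∀ j : Fin N, dist (x + R * (e * rt N ^ (j : ℕ))) (ζ j R) ≤ 3 * E := fun j => by
    have h1 := lip_Cnt (hζ j) (hwin j)
    have h2 := dist_triangle (x + R * (e * rt N ^ (j : ℕ))) (w j) (ζ j R)
    rw [dist_comm (w j), dist_eq_norm (ζ j R)] at h2
    linarith [hwd j, hd j]
  refine ⟨fun j => ζ j R, fun i j hij => ?_, fun j => (hζ j).mem R (hwin j), fun u hu hux => ?_⟩
  · by_contra hne
    have h1 := ray_far hN he hne hR0.le hR0.le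
    have h2 := dist_triangle_right (x + R * (e * rt N ^ (i : ℕ))) (x + R * (e * rt N ^ (j : ℕ)))
      (ζ j R)
    have h3 := hy i
    have h4 : ζ i R = ζ j R := hij
    rw [h4] at h3
    rw [dist_add_left, dist_eq_norm] at h2
    linarith [hy j]
  · obtain ⟨u', hu', hdu⟩ := hC1 u ⟨hu, by rw [mem_closedBall, dist_eq_norm, hux]; linarith⟩
    obtain ⟨j, t, ht, rfl⟩ := (cone_iff hN x e _).1 hu'
    refine ⟨j, ?_⟩
    have h1 := abs_Cnt x (x + t * (e * rt N ^ (j : ℕ))) u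
    rw [nrm_Cnt (hv j) ht, hux, ← dist_eq_norm (x + t * (e * rt N ^ (j : ℕ))), dist_comm] at h1
    have h2 := dist_triangle4 u (x + t * (e * rt N ^ (j : ℕ))) (x + R * (e * rt N ^ (j : ℕ))) (w j)
    rw [dist_eq_norm (x + t * (e * rt N ^ (j : ℕ))), nrm2_Cnt (hv j), dist_eq_norm u (w j)] at h2
    have h3 := (hζ j).uniq u hu (by linarith [hwd j, hd2 j])
    rw [hux] at h3
    exact h3.symm

end Vale.Agent.P128.Rd
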