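import Vale.Agent.P128.RAD.Sec

/-! P128 RAD/Cover (TASK, about 150 lines). `sec_cover`: let `T r` mean that every `w ∈ K` with `‖w - x‖ = r` is some `z j r`. If `T r'`, `r ≤ r' ≤ r + σ r`, `r' ≤ d`, then `T r`: take the local branch `ζ` at `w`, `ζ r' = z j r'`, `sec_uniq` on `Icc r r'`.
Induction on `n`: `T r` for all `r ∈ Ioc 0 d` with `d ≤ r (1 + σ)^n` (use `r' = min d (r + σ r)`); `pow_unbounded_of_one_lt`.
`sec_radial`: for `r ∈ Ioc 0 ρ` take the local branch `ζ` at `f r`; its window lies in `Ioc 0 (3/2 ρ)`; `f = ζ` on the window (`sec_uniq`, `Loc.sec`), so `HasDerivAt f (ζ' s) s` for `|s - r| < σ r`.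
Hoelder: if `r - r' < σ r` use `Loc.holder`; else `‖·‖ ≤ 4 ≤ (4/σ) q ≤ (4/σ) q^α` with `q = (r - r')/r ≤ 1`. Helper names end with `_Cov`. -/

namespace Vale.Agent.P128.Rd

open MeasureTheory Set Metric Filter Topology
open scoped ENNReal ComplexConjugate

variable {K : Set ℂ} {x : ℂ} {R d σ A α ρ : ℝ}

theorem step_Cov {N : ℕ} (hσ : 0 < σ) (hL : HasLoc K x R σ A α)
    (hd : d ∈ Ioc 0 R) {z : Fin N → ℝ → ℂ} (hz : ∀ j, Sec K x (Ioc 0 d) (z j)) {r r' : ℝ}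
    (hr : 0 < r) (h1 : r ≤ r') (h2 : r' ≤ r + σ * r) (h3 : r' ≤ d)
    (hT : ∀ w ∈ K, ‖w - x‖ = r' → ∃ j, z j r' = w) :
    ∀ w ∈ K, ‖w - x‖ = r → ∃ j, z j r = w := by
  intro w hw hwr
  have hσr : 0 < σ * r := mul_pos hσ hr
  obtain ⟨ζ, ζ', hζ⟩ := hL w hw (by rw [hwr]; exact ⟨hr, by linarith [hd.2]⟩)
  rw [hwr] at hζ
  have hm := hζ.mem r' ⟨by linarith, h2⟩
  obtain ⟨j, hj⟩ := hT _ hm.1 hm.2
  refine ⟨j, ?_⟩
  have hsub1 : Icc r r' ⊆ Ioc 0 d := fun t ht => ⟨by linarith [ht.1], by linarith [ht.2]⟩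
  have hsub2 : Icc r r' ⊆ Icc (r - σ * r) (r + σ * r) :=
    fun t ht => ⟨by linarith [ht.1], by linarith [ht.2]⟩
  have hsub3 : Icc r r' ⊆ Ioc 0 R := fun t ht => ⟨(hsub1 ht).1, (hsub1 ht).2.trans hd.2⟩
  have := sec_uniq hσ hL isPreconnected_Icc hsub3 ((hz j).mono hsub1) (hζ.sec.mono hsub2)
    (right_mem_Icc.2 h1) hj (left_mem_Icc.2 h1)
  rw [this, hζ.self]

theorem sec_cover {N : ℕ} (hσ : 0 < σ) (hσ1 : σ ≤ 1 / 2) (hL : HasLoc K x R σ A α)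
    (hd : d ∈ Ioc 0 R) {z : Fin N → ℝ → ℂ} (hz : ∀ j, Sec K x (Ioc 0 d) (z j))
    (htop : ∀ w ∈ K, ‖w - x‖ = d → ∃ j, z j d = w) :
    ∀ w ∈ K, ‖w - x‖ ∈ Ioc 0 d → ∃ j, z j ‖w - x‖ = w := by
  have key : ∀ n : ℕ, ∀ r ∈ Ioc 0 d, d ≤ r * (1 + σ) ^ n →
      ∀ w ∈ K, ‖w - x‖ = r → ∃ j, z j r = w := by
    intro n
    induction n with
    | zero =>
      intro r hr h
      have e : r = d := le_antisymm hr.2 (by simpa using h)
      rw [e]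
      exact htop
    | succ n ih =>
      intro r hr h
      have hσr : 0 < σ * r := mul_pos hσ hr.1
      rcases le_total d (r + σ * r) with e | e
      · exact step_Cov hσ hL hd hz hr.1 hr.2 e le_rfl htop
      · refine step_Cov hσ hL hd hz hr.1 (by linarith) le_rfl e
          (ih _ ⟨by linarith [hr.1], e⟩ ?_)
        calc d ≤ r * (1 + σ) ^ (n + 1) := h
          _ = (r + σ * r) * (1 + σ) ^ n := by ring
  intro w hw hr
  obtain ⟨n, hn⟩ := pow_unbounded_of_one_lt (d / ‖w - x‖) (show (1 : ℝ) < 1 + σ by linarith)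
  refine key n _ hr ?_ w hw rfl
  rw [div_lt_iff₀ hr.1] at hn
  linarith

theorem loc_Cov (hσ : 0 < σ) (hσ1 : σ ≤ 1 / 2) (hL : HasLoc K x (2 * ρ) σ A α) {f : ℝ → ℂ}
    (hf : Sec K x (Ioc 0 (3 / 2 * ρ)) f) {r : ℝ} (hr : r ∈ Ioc 0 ρ) :
    ∃ ζ ζ' : ℝ → ℂ, Loc K x (f r) r σ A α ζ ζ' ∧
      ∀ s, |s - r| < σ * r → HasDerivAt f (ζ' s) s := by
  have hr0 := hr.1
  have hr1 := hr.2
  have hσr : 0 < σ * r := mul_pos hσ hr0
  have hσr2 : σ * r ≤ r / 2 := by nlinarith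
  have hfr := hf.2 r ⟨hr0, by linarith⟩
  obtain ⟨ζ, ζ', hζ⟩ := hL (f r) hfr.1 (by rw [hfr.2]; exact ⟨hr0, by linarith⟩)
  rw [hfr.2] at hζ
  refine ⟨ζ, ζ', hζ, fun s hs => ?_⟩
  have hsub1 : Icc (r - σ * r) (r + σ * r) ⊆ Ioc 0 (3 / 2 * ρ) :=
    fun t ht => ⟨by linarith [ht.1], by linarith [ht.2]⟩
  have hsub2 : Icc (r - σ * r) (r + σ * r) ⊆ Ioc 0 (2 * ρ) :=
    fun t ht => ⟨by linarith [ht.1], by linarith [ht.2]⟩
  have heq := sec_uniq hσ hL isPreconnected_Icc hsub2 (hf.mono hsub1) hζ.sec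
    (r₀ := r) ⟨by linarith, by linarith⟩ hζ.self.symm
  obtain ⟨hs1, hs2⟩ := abs_lt.1 hs
  have hn : Icc (r - σ * r) (r + σ * r) ∈ 𝓝 s := Icc_mem_nhds (by linarith) (by linarith)
  refine (hζ.deriv s ⟨by linarith, by linarith⟩).congr_of_eventuallyEq ?_
  filter_upwards [hn] with t ht using heq ht

theorem sec_radial (hσ : 0 < σ) (hσ1 : σ ≤ 1 / 2) (hA : 0 ≤ A) (hα : 0 < α) (hα1 : α ≤ 1)
    (hL : HasLoc K x (2 * ρ) σ A α) {f : ℝ → ℂ} (hf : Sec K x (Ioc 0 (3 / 2 * ρ)) f) :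
    Radial x ρ (A + 4 / σ) α f (deriv f) := by
  have hb : ∀ r ∈ Ioc 0 ρ, HasDerivAt f (deriv f r) r ∧ ‖deriv f r‖ ≤ 2 := by
    intro r hr
    have hσr : 0 < σ * r := mul_pos hσ hr.1
    obtain ⟨ζ, ζ', hζ, hD⟩ := loc_Cov hσ hσ1 hL hf hr
    have h1 := hD r (by simpa using hσr)
    rw [h1.deriv]
    exact ⟨h1, hζ.bound r ⟨by linarith, by linarith⟩⟩
  refine ⟨fun r hr => (hf.2 r ⟨hr.1, by linarith [hr.1, hr.2]⟩).2, fun r hr => (hb r hr).1,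
    fun r hr => (hb r hr).2, fun r hr r' hr' => ?_⟩
  have hr0 := hr.1
  have hσr : 0 < σ * r := mul_pos hσ hr0
  have hq0 : 0 ≤ (r - r') / r := div_nonneg (by linarith [hr'.2]) hr0.le
  have hq1 : (r - r') / r ≤ 1 := by
    rw [div_le_one hr0]
    linarith [hr'.1]
  have hp0 : 0 ≤ ((r - r') / r) ^ α := Real.rpow_nonneg hq0 _
  have h4 : 0 < 4 / σ := by positivity
  rcases lt_or_ge (r - r') (σ * r) with e | e
  · obtain ⟨ζ, ζ', hζ, hD⟩ := loc_Cov hσ hσ1 hL hf hr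
    have h1 := hD r (by simpa using hσr)
    have h2 := hD r' (by rw [abs_sub_comm, abs_of_nonneg (by linarith [hr'.2])]; exact e)
    rw [h1.deriv, h2.deriv]
    have h3 := hζ.holder r ⟨by linarith, by linarith⟩ r' ⟨by linarith, by linarith [hr'.2]⟩
    rw [abs_of_nonneg (by linarith [hr'.2])] at h3
    refine h3.trans (mul_le_mul_of_nonneg_right (by linarith) hp0)
  · have h1 := (hb r hr).2
    have h2 := (hb r' ⟨by linarith [hr'.1], by linarith [hr'.2, hr.2]⟩).2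
    have h3 : σ ≤ (r - r') / r := by
      rw [le_div_iff₀ hr0]
      exact e
    have h5 : (r - r') / r ≤ ((r - r') / r) ^ α := by
      have := Real.rpow_le_rpow_of_exponent_ge (by linarith) hq1 hα1
      rwa [Real.rpow_one] at this
    have h6 : 4 ≤ 4 / σ * ((r - r') / r) ^ α := by
      have h7 : 4 / σ * σ = 4 := by field_simp
      calc (4 : ℝ) = 4 / σ * σ := h7.symm
        _ ≤ 4 / σ * ((r - r') / r) ^ α := mul_le_mul_of_nonneg_left (h3.trans h5) h4.le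
    have h8 := norm_sub_le (deriv f r) (deriv f r')
    have h9 : 0 ≤ A * ((r - r') / r) ^ α := mul_nonneg hA hp0
    rw [add_mul]
    linarith

end Vale.Agent.P128.Rd
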