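import Vale.Agent.P128.RAD.Dirn
import Vale.Agent.P128.RAD.Arm
import Vale.Agent.P128.RAD.Cover
import Vale.Agent.P128.RAD.Count

/-! P128 RAD/Star0: frozen statement `RAD`. -/

namespace Vale.Agent.P128

open MeasureTheory Set Metric Filter Topology
open scoped ENNReal

/-- Local graphs and closeness to a cone at all scales give a star of radial curves. -/
theorem RAD {N : ℕ} (hN : N = 1 ∨ N = 3) {τ A α : ℝ} (hτ : 0 < τ) (hτ1 : τ ≤ 1 / 10)
    (hα : 0 < α) (hα1 : α ≤ 1) : ∃ η A' : ℝ, 0 < η ∧ ∀ (K : Set ℂ) (x : ℂ) (ρ : ℝ),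
      IsClosed K → x ∈ K → 0 < ρ → (∀ s ∈ Ioc 0 (4 * ρ), ∃ e, Close N η K x s e) →
      (∀ y ∈ K, 0 < dist y x → dist y x ≤ 2 * ρ →
        ∃ e φ φ', Graph K y e (τ * dist y x) A α (dist y x) φ φ') →
      ∃ z z' : Fin N → ℝ → ℂ, Star N K x ρ A' α z z' := by
  refine ⟨τ / 100, 20 * |A| + 100 + 4 / (τ / 4), by positivity,
    fun K x ρ _ hx hρ hC hG => ?_⟩
  have hσ : 0 < τ / 4 := by positivity
  have hσ1 : τ / 4 ≤ 1 / 2 := by linarith
  have hL : Rd.HasLoc K x (2 * ρ) (τ / 4) (20 * |A| + 100) α := by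
    intro y hy hd
    obtain ⟨e, φ, φ', g⟩ := hG y hy (by rw [dist_eq_norm]; exact hd.1)
      (by rw [dist_eq_norm]; exact hd.2)
    rw [dist_eq_norm] at g
    obtain ⟨e₀, c⟩ := hC (2 * ‖y - x‖) ⟨by linarith [hd.1], by linarith [hd.2]⟩
    have k := Rd.graph_radial hN hτ hτ1 le_rfl hd.1 rfl c g
    rcases le_abs.1 k with k | k
    · exact Rd.graph_loc hτ hτ1 hα hα1 hd.1 rfl g k
    · refine Rd.graph_loc hτ hτ1 hα hα1 hd.1 rfl (Rd.graph_neg g) ?_
      rwa [neg_mul, Complex.neg_re]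
  obtain ⟨e, c⟩ := hC (3 * ρ) ⟨by linarith, by linarith⟩
  obtain ⟨y, yi, ym, ytop⟩ := Rd.count hN hσ hσ1 (by linarith) hρ hL c
  have hd : 3 / 2 * ρ ∈ Ioc 0 (2 * ρ) := ⟨by linarith, by linarith⟩
  choose z zs zy using fun j => Rd.sec_down hσ hσ1 hL (ym j).1 hd (ym j).2
  have hsub : Ioc 0 ρ ⊆ Ioc 0 (3 / 2 * ρ) := Ioc_subset_Ioc_right (by linarith)
  refine ⟨z, fun j => deriv (z j), hρ, hα,
    fun j => Rd.sec_radial hσ hσ1 (by positivity) hα hα1 hL (zs j), fun i j hij r hr e => ?_, ?_⟩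
  · have k := Rd.sec_uniq hσ hL isPreconnected_Ioc (Ioc_subset_Ioc_right hd.2) (zs i) (zs j)
      (hsub hr) e ⟨hd.1, le_rfl⟩
    rw [zy, zy] at k
    exact hij (yi k)
  · ext w
    constructor
    · rintro ⟨hw, hb⟩
      rw [mem_closedBall, dist_eq_norm] at hb
      by_cases hwx : w = x
      · exact Or.inl hwx
      · have h0 : ‖w - x‖ ∈ Ioc 0 ρ := ⟨norm_pos_iff.2 (sub_ne_zero.2 hwx), hb⟩
        obtain ⟨j, hj⟩ := Rd.sec_cover hσ hσ1 hL hd zs
          (fun v hv hn => by simpa only [zy] using ytop v hv hn) w hw (hsub h0)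
        exact Or.inr (mem_iUnion.2 ⟨j, _, h0, hj⟩)
    · rintro (hw | hw)
      · rw [mem_singleton_iff.1 hw]
        exact ⟨hx, mem_closedBall_self hρ.le⟩
      · obtain ⟨j, r, hr, rfl⟩ := mem_iUnion.1 hw
        have k := (zs j).2 r (hsub hr)
        refine ⟨k.1, ?_⟩
        rw [mem_closedBall, dist_eq_norm, k.2]
        exact hr.2

end Vale.Agent.P128
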