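import Vale.Agent.P128.Defs3
import Vale.Agent.P128.TA2.Main
import Vale.Agent.P128.TA3.Main
import Vale.Agent.P128.RAD.Gr1
import Vale.Agent.P128.RAD.Gr2
import Vale.Agent.P128.RAD.End
import Vale.Agent.P128.RAD.StReg
import Vale.Agent.P128.RAD.StBasic
import Vale.Agent.P128.RAD.StSep
import Vale.Agent.P128.RAD.StFlat
import Vale.Agent.P128.RAD.Star0

/-! P128 block RAD: graphs, radial curves, arcs. The statements (unchanged) are in the files of this folder:
Gr1 (Graph.mono, Graph.reg, Graph.flat), Gr2 (Graph.disc), Star0 (RAD), End (ENDREG), StReg (Star.reg, Star.mono),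
StBasic (Star.basic), StSep (Star.sep), StFlat (Star.flat_pt). -/
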