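import Vale.Agent.P128.RAD.Def

/-! P128 RAD/Cone (TASK, about 90 lines): rays of a cone. `rt 1 = 1` (`Complex.exp_two_pi_mul_I`), `rt N ^ N = 1` so `rt N ^ j = rt N ^ (j % N)`; `rt 3 = -1/2 + (√3/2) i`, or use `ω² + ω + 1 = 0`, `‖ω‖ = 1`, `(ω).re = (ω²).re = -1/2`.
`ray_far`: `‖s v - t w‖² = s² + t² - 2 s t (v conj w).re = s² + t² + s t`. Helper names end with `_Cone`. -/

namespace Vale.Agent.P128.Rd

open MeasureTheory Set Metric Filter Topology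
open scoped ENNReal ComplexConjugate

theorem norm_Cone (N : ℕ) : ‖rt N‖ = 1 := by
  have e : 2 * (Real.pi : ℂ) * Complex.I / N = ((2 * Real.pi / N : ℝ) : ℂ) * Complex.I := by
    push_cast
    ring
  rw [rt, e, Complex.norm_exp_ofReal_mul_I]

theorem prim_Cone {N : ℕ} (hN : N ≠ 0) : IsPrimitiveRoot (rt N) N :=
  Complex.isPrimitiveRoot_exp N hN

theorem re_Cone {q : ℂ} (h3 : q ^ 3 = 1) (h1 : q ≠ 1) (hn : ‖q‖ = 1) : q.re ≤ 0 := by
  have h : q * q + q + 1 = 0 := by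
    refine (mul_eq_zero.1 (?_ : (q - 1) * (q * q + q + 1) = 0)).resolve_left (sub_ne_zero.2 h1)
    linear_combination h3
  have h4 := congrArg Complex.re h
  have h5 : q.re * q.re + q.im * q.im = 1 := by
    rw [← Complex.normSq_apply, Complex.normSq_eq_norm_sq, hn, one_pow]
  simp only [Complex.add_re, Complex.mul_re, Complex.one_re, Complex.zero_re] at h4
  nlinarith

theorem ray_norm (N : ℕ) {e : ℂ} (he : ‖e‖ = 1) (j : ℕ) : ‖e * rt N ^ j‖ = 1 := by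
  rw [norm_mul, norm_pow, he, norm_Cone, one_pow, one_mul]

theorem cone_iff {N : ℕ} (hN : N = 1 ∨ N = 3) (x e w : ℂ) :
    w ∈ cone N x e ↔ ∃ (j : Fin N) (t : ℝ), 0 ≤ t ∧ w = x + t * (e * rt N ^ (j : ℕ)) := by
  have h0 : 0 < N := by omega
  constructor
  · rintro ⟨j, t, ht, h⟩
    refine ⟨⟨j % N, Nat.mod_lt _ h0⟩, t, ht, ?_⟩
    rw [h, pow_eq_pow_mod j (prim_Cone h0.ne').pow_eq_one]
  · rintro ⟨j, t, ht, h⟩
    exact ⟨j, t, ht, h⟩

theorem ray_far {N : ℕ} (hN : N = 1 ∨ N = 3) {e : ℂ} (he : ‖e‖ = 1) {i j : Fin N} (hij : i ≠ j)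
    {s t : ℝ} (hs : 0 ≤ s) (ht : 0 ≤ t) :
    s ≤ ‖(s : ℂ) * (e * rt N ^ (i : ℕ)) - (t : ℂ) * (e * rt N ^ (j : ℕ))‖ := by
  rcases hN with rfl | rfl
  · exact absurd (Subsingleton.elim i j) hij
  have hp := prim_Cone (N := 3) (by norm_num)
  have hc : ∀ k : ℕ, (rt 3 ^ k) ^ 3 = 1 := fun k => by
    rw [← pow_mul, mul_comm, pow_mul, hp.pow_eq_one, one_pow]
  have hn : ∀ k : ℕ, ‖rt 3 ^ k‖ = 1 := fun k => by rw [norm_pow, norm_Cone, one_pow]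
  have h0 : rt 3 ^ (i : ℕ) ≠ 0 := norm_ne_zero_iff.1 (by rw [hn]; exact one_ne_zero)
  have hq : (rt 3 ^ (j : ℕ) / rt 3 ^ (i : ℕ)).re ≤ 0 := by
    refine re_Cone (by rw [div_pow, hc, hc, div_one]) (fun h => hij (Fin.ext ?_))
      (by rw [norm_div, hn, hn, div_one])
    exact (hp.pow_inj j.2 i.2 ((div_eq_one_iff_eq h0).1 h)).symm
  have e1 : (s : ℂ) * (e * rt 3 ^ (i : ℕ)) - (t : ℂ) * (e * rt 3 ^ (j : ℕ)) =
      e * rt 3 ^ (i : ℕ) * (s - t * (rt 3 ^ (j : ℕ) / rt 3 ^ (i : ℕ))) := by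
    field_simp
  rw [e1, norm_mul, ray_norm 3 he, one_mul]
  refine le_trans ?_ (Complex.re_le_norm _)
  rw [Complex.sub_re, Complex.ofReal_re, Complex.re_ofReal_mul]
  nlinarith

end Vale.Agent.P128.Rd
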