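import Vale.Agent.P128.Defs3

/-! P128 RAD/Def: local branches, sections, and basic facts on radial curves. -/

namespace Vale.Agent.P128.Rd

open MeasureTheory Set Metric Filter Topology
open scoped ENNReal ComplexConjugate

noncomputable section

/-- The point of a graph with parameter `s`. -/
def crv (y e : ℂ) (φ : ℝ → ℝ) (s : ℝ) : ℂ := y + e * ((s : ℂ) + (φ s : ℂ) * Complex.I)

/-- The velocity of a graph at parameter `s`. -/
def crv' (e : ℂ) (φ' : ℝ → ℝ) (s : ℝ) : ℂ := e * (1 + (φ' s : ℂ) * Complex.I)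

/-- Near `y`, at distance `d` from `x`, `K` is a curve parametrized by the distance to `x`. -/
structure Loc (K : Set ℂ) (x y : ℂ) (d σ A α : ℝ) (ζ ζ' : ℝ → ℂ) : Prop where
  self : ζ d = y
  mem : ∀ r ∈ Icc (d - σ * d) (d + σ * d), ζ r ∈ K ∧ ‖ζ r - x‖ = r
  deriv : ∀ r ∈ Icc (d - σ * d) (d + σ * d), HasDerivAt ζ (ζ' r) r
  bound : ∀ r ∈ Icc (d - σ * d) (d + σ * d), ‖ζ' r‖ ≤ 2
  holder : ∀ r ∈ Icc (d - σ * d) (d + σ * d), ∀ r' ∈ Icc (d - σ * d) (d + σ * d),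
    ‖ζ' r - ζ' r'‖ ≤ A * (|r - r'| / d) ^ α
  uniq : ∀ w ∈ K, ‖w - y‖ ≤ σ * d → w = ζ ‖w - x‖

/-- Local branches exist at all points of `K` at distance in `(0, R]` from `x`. -/
def HasLoc (K : Set ℂ) (x : ℂ) (R σ A α : ℝ) : Prop :=
  ∀ y ∈ K, ‖y - x‖ ∈ Ioc 0 R → ∃ ζ ζ' : ℝ → ℂ, Loc K x y ‖y - x‖ σ A α ζ ζ'

/-- A continuous section over `I` of the distance to `x` on `K`. -/
def Sec (K : Set ℂ) (x : ℂ) (I : Set ℝ) (f : ℝ → ℂ) : Prop :=
  ContinuousOn f I ∧ ∀ r ∈ I, f r ∈ K ∧ ‖f r - x‖ = r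

variable {x : ℂ} {ρ A α : ℝ} {z z' : ℝ → ℂ}

theorem rad_gen (hz : Radial x ρ A α z z') {r : ℝ} (hr : r ∈ Ioc 0 ρ) :
    (z' r * conj (z r - x)).re = r ∧ 1 ≤ ‖z' r‖ := by
  have hn := hz.norm
  have hd := hz.deriv
  have hU : UniqueDiffWithinAt ℝ (Ioc 0 ρ) r := uniqueDiffOn_Ioc 0 ρ r hr
  have h1 : HasDerivAt (fun s => ‖z s - x‖ ^ 2) (2 * inner ℝ (z r - x) (z' r)) r :=
    ((hd r hr).sub_const x).norm_sq
  have h2 : HasDerivWithinAt (fun s => ‖z s - x‖ ^ 2) (2 * r) (Ioc 0 ρ) r := by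
    have h3 : HasDerivAt (fun s : ℝ => s ^ 2) (2 * r) r := by
      simpa using hasDerivAt_pow 2 r
    refine h3.hasDerivWithinAt.congr (fun s hs => ?_) ?_
    · rw [hn s hs]
    · rw [hn r hr]
  have h4 := hU.eq_deriv _ h1.hasDerivWithinAt h2
  have h5 : (z' r * conj (z r - x)).re = r := by
    rw [Complex.inner] at h4
    linarith
  refine ⟨h5, ?_⟩
  have h6 := Complex.re_le_norm (z' r * conj (z r - x))
  rw [h5, norm_mul, Complex.norm_conj, hn r hr] at h6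
  have h7 : r * 1 ≤ r * ‖z' r‖ := by linarith
  exact le_of_mul_le_mul_left h7 hr.1

theorem rad_cont (hα : 0 < α) (hz : Radial x ρ A α z z') : ContinuousOn z' (Ioc 0 ρ) := by
  intro r hr
  have hc : ContinuousAt (fun s : ℝ => |A| * (2 * |s - r| / r) ^ α) r :=
    continuousAt_const.mul (ContinuousAt.rpow_const (by fun_prop) (Or.inr hα.le))
  have h0 : Tendsto (fun s : ℝ => |A| * (2 * |s - r| / r) ^ α) (𝓝[Ioc 0 ρ] r) (𝓝 0) := by
    have := hc.tendsto.mono_left (nhdsWithin_le_nhds (s := Ioc 0 ρ))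
    simpa [Real.zero_rpow hα.ne'] using this
  refine tendsto_iff_norm_sub_tendsto_zero.2 (squeeze_zero' (Eventually.of_forall fun _ =>
    norm_nonneg _) ?_ h0)
  have hn : Ioo (r / 2) (2 * r) ∈ 𝓝[Ioc 0 ρ] r :=
    nhdsWithin_le_nhds (Ioo_mem_nhds (by linarith [hr.1]) (by linarith [hr.1]))
  filter_upwards [hn, self_mem_nhdsWithin] with s hs hs'
  have key : ∀ v w : ℝ, 0 ≤ v → v ≤ w → A * v ^ α ≤ |A| * w ^ α := fun v w h1 h2 =>
    mul_le_mul (le_abs_self A) (Real.rpow_le_rpow h1 h2 hα.le) (Real.rpow_nonneg h1 _)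
      (abs_nonneg A)
  rcases le_total s r with e | e
  · rw [norm_sub_rev]
    refine (hz.holder r hr s ⟨hs.1.le, e⟩).trans (key _ _ (div_nonneg (by linarith) hr.1.le) ?_)
    rw [abs_of_nonpos (by linarith)]
    exact div_le_div_of_nonneg_right (by linarith) hr.1.le
  · refine (hz.holder s hs' r ⟨by linarith [hs.2], e⟩).trans
      (key _ _ (div_nonneg (by linarith) hs'.1.le) ?_)
    rw [abs_of_nonneg (by linarith)]
    exact div_le_div₀ (by linarith) (by linarith) hr.1 e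

/-- A radial curve is `2`-Lipschitz. -/
theorem rad_lip (hz : Radial x ρ A α z z') {r s : ℝ} (hr : r ∈ Ioc 0 ρ) (hs : s ∈ Ioc 0 ρ) :
    ‖z r - z s‖ ≤ 2 * |r - s| := by
  have := (convex_Ioc (0 : ℝ) ρ).norm_image_sub_le_of_norm_hasDerivWithin_le (f := z) (f' := z')
    (C := 2) (fun t ht => (hz.deriv t ht).hasDerivWithinAt) hz.bound hs hr
  simpa [Real.norm_eq_abs] using this

end

end Vale.Agent.P128.Rd
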