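import Vale.Agent.P128.RAD.Gr0
import Vale.Agent.P128.RAD.Cone

/-! P128 RAD/Dirn (TASK, about 130 lines): the graph direction is almost radial. `y = crv 0` and `y₁ = crv (τ d)` are in `K ∩ closedBall x (2d)` (`crv_mem`, `crv_sub`), so within `2 η d` of cone points
`w₀ = x + t₀ v₀`, `w₁ = x + t₁ v₁` (`cone_iff`); `|t₀ - d| ≤ 2 η d`, `‖w₀ - w₁‖ ≤ 0.101 d + 4 η d < t₀`, so `v₀ = v₁ = v` by `ray_far`. Then `|((y₁ - y) conj v).im| ≤ 4 η d`, `‖y₁ - y - τ d e‖ ≤ τ d / 100` give `|(e conj v).im| ≤ 1/20`;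
`‖y - x - d v‖ ≤ 4 η d`; `(e conj v).re² + (e conj v).im² = 1` gives `|(e conj v).re| ≥ 0.99`, and `|(e conj (y - x)).re| ≥ d |(e conj v).re| - 4 η d`. Note `0 ≤ η` follows from `Close`. Helper names end with `_Dirn`. -/

namespace Vale.Agent.P128.Rd

open MeasureTheory Set Metric Filter Topology
open scoped ENNReal ComplexConjugate

theorem core_Dirn {e v g : ℂ} {h s : ℝ} (he : ‖e‖ = 1) (hv : ‖v‖ = 1) (hh : 0 < h)
    (h1 : (h : ℂ) * e = s * v + g) (hg : ‖g‖ ≤ h / 20) : 99 / 100 ≤ |(e * conj v).re| := by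
  have h2 : v * conj v = 1 := by
    rw [Complex.mul_conj, Complex.normSq_eq_norm_sq, hv]
    norm_num
  have h3 : (h : ℂ) * (e * conj v) = s + g * conj v := by
    linear_combination conj v * h1 + s * h2
  have h4 : h * (e * conj v).im = (g * conj v).im := by
    have := congrArg Complex.im h3
    simpa only [Complex.im_ofReal_mul, Complex.add_im, Complex.ofReal_im, zero_add] using this
  have h5 : |(g * conj v).im| ≤ h / 20 := by
    refine (Complex.abs_im_le_norm _).trans ?_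
    rwa [norm_mul, Complex.norm_conj, hv, mul_one]
  rw [← h4, abs_mul, abs_of_pos hh] at h5
  have h6 : |(e * conj v).im| ≤ 1 / 20 := le_of_mul_le_mul_left (by linarith) hh
  have h7 : (e * conj v).re ^ 2 + (e * conj v).im ^ 2 = 1 := by
    have : Complex.normSq (e * conj v) = 1 := by
      rw [Complex.normSq_eq_norm_sq, norm_mul, Complex.norm_conj, he, hv]
      norm_num
    rw [Complex.normSq_apply] at this
    linarith
  have h8 : (e * conj v).im ^ 2 ≤ (1 / 20) ^ 2 := sq_le_sq' (by linarith [(abs_le.1 h6).1])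
    (abs_le.1 h6).2
  refine le_of_sq_le_sq ?_ (abs_nonneg _)
  rw [sq_abs]
  linarith

theorem graph_radial {N : ℕ} (hN : N = 1 ∨ N = 3) {K : Set ℂ} {x y e e₀ : ℂ} {τ η A α d : ℝ}
    {φ φ' : ℝ → ℝ} (hτ : 0 < τ) (hτ1 : τ ≤ 1 / 10) (hη : η ≤ τ / 100) (hd : 0 < d)
    (hy : ‖y - x‖ = d) (hC : Close N η K x (2 * d) e₀) (hG : Graph K y e (τ * d) A α d φ φ') :
    9 / 10 * d ≤ |(e * conj (y - x)).re| := by
  obtain ⟨he₀, hC, -⟩ := hC
  have hh : 0 < τ * d := mul_pos hτ hd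
  have hh1 : τ * d ≤ 1 / 10 * d := mul_le_mul_of_nonneg_right hτ1 hd.le
  have hh2 : η * d ≤ τ / 100 * d := mul_le_mul_of_nonneg_right hη hd.le
  have m0 : (0 : ℝ) ∈ Icc (-(τ * d)) (τ * d) := ⟨by linarith, hh.le⟩
  have m1 : τ * d ∈ Icc (-(τ * d)) (τ * d) := ⟨by linarith, le_rfl⟩
  have k0 := crv_mem hG m0
  have k1 := crv_mem hG m1
  obtain ⟨-, s1, s2⟩ := crv_sub hG m1 m0
  rw [crv_zero hG] at k0 s1 s2
  rw [sub_zero, abs_of_pos hh] at s1 s2
  generalize crv y e φ (τ * d) = y₁ at k1 s1 s2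
  have b0 : y ∈ closedBall x (2 * d) := by
    rw [mem_closedBall, dist_eq_norm, hy]
    linarith
  have b1 : y₁ ∈ closedBall x (2 * d) := by
    rw [mem_closedBall, dist_eq_norm]
    have := norm_sub_le_norm_sub_add_norm_sub y₁ y x
    linarith
  obtain ⟨w₀, hw₀, d0⟩ := hC y ⟨k0, b0⟩
  obtain ⟨w₁, hw₁, d1⟩ := hC y₁ ⟨k1, b1⟩
  obtain ⟨j₀, t₀, ht₀, rfl⟩ := (cone_iff hN x e₀ w₀).1 hw₀
  obtain ⟨j₁, t₁, ht₁, rfl⟩ := (cone_iff hN x e₀ w₁).1 hw₁
  rw [dist_eq_norm] at d0 d1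
  have n0 := ray_norm N he₀ j₀
  have l0 : d - η * (2 * d) ≤ t₀ := by
    have := norm_sub_le_norm_sub_add_norm_sub y (x + t₀ * (e₀ * rt N ^ (j₀ : ℕ))) x
    rw [add_sub_cancel_left, norm_mul, n0, Complex.norm_real, Real.norm_of_nonneg ht₀] at this
    linarith
  have ej : j₀ = j₁ := by
    by_contra hne
    have h1 := ray_far hN he₀ hne ht₀ ht₁
    have h2 : (t₀ : ℂ) * (e₀ * rt N ^ (j₀ : ℕ)) - (t₁ : ℂ) * (e₀ * rt N ^ (j₁ : ℕ)) =
        y₁ - (x + t₁ * (e₀ * rt N ^ (j₁ : ℕ))) - (y - (x + t₀ * (e₀ * rt N ^ (j₀ : ℕ)))) -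
          (y₁ - y) := by ring
    rw [h2] at h1
    have h3 := h1.trans ((norm_sub_le _ _).trans (add_le_add (norm_sub_le _ _) le_rfl))
    linarith
  subst ej
  generalize e₀ * rt N ^ (j₀ : ℕ) = v at d0 d1 n0
  have c1 := core_Dirn (s := t₁ - t₀) (g := y₁ - (x + t₁ * v) - (y - (x + t₀ * v)) -
    (y₁ - y - ((τ * d : ℝ) : ℂ) * e)) hG.unit n0 hh (by push_cast; ring) (by
      refine (norm_sub_le _ _).trans ((add_le_add (norm_sub_le _ _) le_rfl).trans ?_)
      linarith)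
  have c2 : (e * conj (y - x)).re =
      t₀ * (e * conj v).re + (e * conj (y - (x + t₀ * v))).re := by
    have : e * conj (y - x) = t₀ * (e * conj v) + e * conj (y - (x + t₀ * v)) := by
      simp only [map_sub, map_add, map_mul, Complex.conj_ofReal]
      ring
    rw [this, Complex.add_re, Complex.re_ofReal_mul]
  have c3 : |(e * conj (y - (x + t₀ * v))).re| ≤ η * (2 * d) := by
    refine (Complex.abs_re_le_norm _).trans ?_
    rwa [norm_mul, Complex.norm_conj, hG.unit, one_mul]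
  have c4 : t₀ * (99 / 100) ≤ |t₀ * (e * conj v).re| := by
    rw [abs_mul, abs_of_nonneg ht₀]
    exact mul_le_mul_of_nonneg_left c1 ht₀
  have c5 := abs_add_le (t₀ * (e * conj v).re + (e * conj (y - (x + t₀ * v))).re)
    (-(e * conj (y - (x + t₀ * v))).re)
  rw [add_neg_cancel_right, abs_neg] at c5
  rw [c2]
  linarith

end Vale.Agent.P128.Rd
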