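import Vale.Agent.P128.RAD.Def

/-! P128 RAD/Gr0 (TASK, about 100 lines): elementary facts on graphs. `crv`, `crv'` are in RAD/Def (`unfold crv`).
`gr_lip`: mean value inequality (`Convex.norm_image_sub_le_of_norm_hasDerivWithin_le`). `crv_of_mem`: put `s + t i = (w - y) / e`, `|s|, |t| ≤ ‖w - y‖` (`Complex.abs_re_le_norm`, `Complex.re_add_im`).
`graph_neg`: `y + (-e) (s + t i) = y + e (-s + (-t) i)`. Helper names end with `_Gr0`. -/

namespace Vale.Agent.P128.Rd

open MeasureTheory Set Metric Filter Topology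
open scoped ENNReal ComplexConjugate

variable {K : Set ℂ} {y e : ℂ} {h A α r : ℝ} {φ φ' : ℝ → ℝ}

theorem gr_lip (hG : Graph K y e h A α r φ φ') {s t : ℝ} (hs : s ∈ Icc (-h) h)
    (ht : t ∈ Icc (-h) h) : |φ s - φ t| ≤ |s - t| / 100 := by
  have := (convex_Icc (-h) h).norm_image_sub_le_of_norm_hasDerivWithin_le (f := φ) (f' := φ')
    (C := 1 / 100) (fun t ht => (hG.deriv t ht).hasDerivWithinAt) hG.slope ht hs
  rw [Real.norm_eq_abs, Real.norm_eq_abs] at this
  linarith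

theorem gr_abs (hG : Graph K y e h A α r φ φ') {s : ℝ} (hs : s ∈ Icc (-h) h) :
    |φ s| ≤ |s| / 100 := by
  have := gr_lip hG hs (t := 0) ⟨by linarith [hs.1, hs.2], by linarith [hs.1, hs.2]⟩
  rwa [hG.zero, sub_zero, sub_zero] at this

theorem crv_zero (hG : Graph K y e h A α r φ φ') : crv y e φ 0 = y := by
  simp [crv, hG.zero]

theorem crv_mem (hG : Graph K y e h A α r φ φ') {s : ℝ} (hs : s ∈ Icc (-h) h) :
    crv y e φ s ∈ K := by
  have h1 := gr_abs hG hs
  have h2 := abs_le.2 hs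
  have h3 := abs_nonneg s
  exact (hG.eq s hs (φ s) (abs_le.1 (by linarith))).2 rfl

theorem crv_deriv (hG : Graph K y e h A α r φ φ') {s : ℝ} (hs : s ∈ Icc (-h) h) :
    HasDerivAt (crv y e φ) (crv' e φ' s) s := by
  have h1 := ((((hasDerivAt_id s).ofReal_comp).add
    ((hG.deriv s hs).ofReal_comp.mul_const Complex.I)).const_mul e).const_add y
  simp only [Complex.ofReal_one] at h1
  exact h1

theorem crv'_bound (hG : Graph K y e h A α r φ φ') {s : ℝ} (hs : s ∈ Icc (-h) h) :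
    ‖crv' e φ' s - e‖ ≤ 1 / 100 ∧ 1 ≤ ‖crv' e φ' s‖ ∧ ‖crv' e φ' s‖ ≤ 101 / 100 := by
  have h1 := hG.slope s hs
  have h2 : ‖crv' e φ' s - e‖ ≤ 1 / 100 := by
    rw [show crv' e φ' s - e = e * (φ' s : ℂ) * Complex.I by unfold crv'; ring]
    simpa [hG.unit] using h1
  refine ⟨h2, ?_, ?_⟩
  · unfold crv'
    rw [norm_mul, hG.unit, one_mul]
    simpa using Complex.re_le_norm (1 + (φ' s : ℂ) * Complex.I)
  · have := norm_sub_norm_le (crv' e φ' s) e
    rw [hG.unit] at this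
    linarith

theorem crv'_sub (hG : Graph K y e h A α r φ φ') (s t : ℝ) :
    ‖crv' e φ' s - crv' e φ' t‖ = |φ' s - φ' t| := by
  rw [show crv' e φ' s - crv' e φ' t = e * ((φ' s - φ' t : ℝ) : ℂ) * Complex.I by
    unfold crv'; push_cast; ring]
  rw [norm_mul, norm_mul, hG.unit, Complex.norm_I, Complex.norm_real, one_mul, mul_one,
    Real.norm_eq_abs]

theorem crv_sub (hG : Graph K y e h A α r φ φ') {s t : ℝ} (hs : s ∈ Icc (-h) h)
    (ht : t ∈ Icc (-h) h) : |s - t| ≤ ‖crv y e φ s - crv y e φ t‖ ∧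
      ‖crv y e φ s - crv y e φ t‖ ≤ 101 / 100 * |s - t| ∧
      ‖crv y e φ s - crv y e φ t - ((s - t : ℝ) : ℂ) * e‖ ≤ |s - t| / 100 := by
  have h1 := gr_lip hG hs ht
  have h2 : ‖crv y e φ s - crv y e φ t - ((s - t : ℝ) : ℂ) * e‖ ≤ |s - t| / 100 := by
    rw [show crv y e φ s - crv y e φ t - ((s - t : ℝ) : ℂ) * e =
      e * ((φ s - φ t : ℝ) : ℂ) * Complex.I by unfold crv; push_cast; ring]
    rwa [norm_mul, norm_mul, hG.unit, Complex.norm_I, Complex.norm_real, one_mul, mul_one,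
      Real.norm_eq_abs]
  refine ⟨?_, ?_, h2⟩
  · rw [show crv y e φ s - crv y e φ t =
      e * (((s - t : ℝ) : ℂ) + ((φ s - φ t : ℝ) : ℂ) * Complex.I) by unfold crv; push_cast; ring,
      norm_mul, hG.unit, one_mul]
    have := Complex.abs_re_le_norm (((s - t : ℝ) : ℂ) + ((φ s - φ t : ℝ) : ℂ) * Complex.I)
    rwa [Complex.add_re, Complex.ofReal_re, Complex.re_ofReal_mul, Complex.I_re, mul_zero,
      add_zero] at this
  · have := norm_sub_norm_le (crv y e φ s - crv y e φ t) (((s - t : ℝ) : ℂ) * e)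
    rw [norm_mul, hG.unit, Complex.norm_real, mul_one, Real.norm_eq_abs] at this
    linarith

theorem crv_of_mem (hG : Graph K y e h A α r φ φ') {w : ℂ} (hw : w ∈ K) (hd : ‖w - y‖ ≤ h) :
    ∃ s ∈ Icc (-h) h, |s| ≤ ‖w - y‖ ∧ w = crv y e φ s := by
  have e0 : e ≠ 0 := norm_pos_iff.1 (by rw [hG.unit]; exact one_pos)
  have h1 : ‖(w - y) / e‖ = ‖w - y‖ := by rw [norm_div, hG.unit, div_one]
  have h2 := Complex.abs_re_le_norm ((w - y) / e)
  have h3 := Complex.abs_im_le_norm ((w - y) / e)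
  rw [h1] at h2 h3
  have h4 : y + e * ((((w - y) / e).re : ℂ) + (((w - y) / e).im : ℂ) * Complex.I) = w := by
    rw [Complex.re_add_im]
    field_simp
    ring
  have h5 := (hG.eq _ (abs_le.1 (h2.trans hd)) _ (abs_le.1 (h3.trans hd))).1 (h4.symm ▸ hw)
  refine ⟨_, abs_le.1 (h2.trans hd), h2, ?_⟩
  unfold crv
  rw [← h5, h4]

theorem graph_neg (hG : Graph K y e h A α r φ φ') :
    Graph K y (-e) h A α r (fun s => -φ (-s)) (fun s => φ' (-s)) := by
  have m : ∀ {s : ℝ}, s ∈ Icc (-h) h → -s ∈ Icc (-h) h := fun hs =>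
    ⟨by linarith [hs.2], by linarith [hs.1]⟩
  refine ⟨by rw [norm_neg, hG.unit], by simp [hG.zero], fun t ht => ?_, fun t ht => hG.slope _ (m ht),
    fun s hs t ht => ?_, fun s hs t ht => ?_⟩
  · have := ((hG.deriv _ (m ht)).comp t (hasDerivAt_neg t)).neg
    simp only [mul_neg, mul_one, neg_neg] at this
    exact this
  · have := hG.holder _ (m hs) _ (m ht)
    rwa [neg_sub_neg, abs_sub_comm t] at this
  · rw [show y + -e * ((s : ℂ) + (t : ℂ) * Complex.I) =
      y + e * (((-s : ℝ) : ℂ) + ((-t : ℝ) : ℂ) * Complex.I) by push_cast; ring,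
      hG.eq _ (m hs) _ (m ht), neg_eq_iff_eq_neg]

end Vale.Agent.P128.Rd
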