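import Vale.Agent.P128.RAD.Def

/-! P128 RAD/Inv (TASK, about 90 lines): inverse of an increasing function. `g t - g s ≥ (t - s) / 2` for `s ≤ t` in `[-h, h]` (`Convex.mul_sub_le_image_sub_of_le_deriv` or monotonicity of `g s - s / 2`);
`σ = Function.invFunOn g (Icc (-h) h)`; `intermediate_value_Icc` covers `[g 0 - h/2, g 0 + h/2]`; `σ` is `2`-Lipschitz there, hence continuous at the points of the smaller interval; `HasDerivAt.of_local_left_inverse`. Helper names end with `_Inv`. -/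

namespace Vale.Agent.P128.Rd

open MeasureTheory Set Metric Filter Topology
open scoped ENNReal ComplexConjugate

theorem grow_Inv {g g' : ℝ → ℝ} {h : ℝ}
    (hd : ∀ s ∈ Icc (-h) h, HasDerivAt g (g' s) s) (hg : ∀ s ∈ Icc (-h) h, 1 / 2 ≤ g' s)
    {s t : ℝ} (hs : s ∈ Icc (-h) h) (ht : t ∈ Icc (-h) h) (hst : s ≤ t) :
    1 / 2 * (t - s) ≤ g t - g s := by
  have hc : ContinuousOn g (Icc (-h) h) := fun x hx => (hd x hx).continuousAt.continuousWithinAt
  refine (convex_Icc (-h) h).mul_sub_le_image_sub_of_le_deriv hc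
    (fun x hx => (hd x (interior_subset hx)).differentiableAt.differentiableWithinAt)
    (fun x hx => ?_) s hs t ht hst
  rw [(hd x (interior_subset hx)).deriv]
  exact hg x (interior_subset hx)

theorem abs_Inv {g g' : ℝ → ℝ} {h : ℝ}
    (hd : ∀ s ∈ Icc (-h) h, HasDerivAt g (g' s) s) (hg : ∀ s ∈ Icc (-h) h, 1 / 2 ≤ g' s)
    {s t : ℝ} (hs : s ∈ Icc (-h) h) (ht : t ∈ Icc (-h) h) :
    |s - t| ≤ 2 * |g s - g t| := by
  rcases le_total s t with e | e
  · have := grow_Inv hd hg hs ht e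
    rw [abs_of_nonpos (by linarith), abs_of_nonpos (by linarith)]
    linarith
  · have := grow_Inv hd hg ht hs e
    rw [abs_of_nonneg (by linarith), abs_of_nonneg (by linarith)]
    linarith

theorem exists_inv {g g' : ℝ → ℝ} {h : ℝ} (hh : 0 < h)
    (hd : ∀ s ∈ Icc (-h) h, HasDerivAt g (g' s) s) (hg : ∀ s ∈ Icc (-h) h, 1 / 2 ≤ g' s) :
    ∃ σ : ℝ → ℝ, (∀ s ∈ Icc (-h) h, σ (g s) = s) ∧
      (∀ r ∈ Icc (g 0 - h / 4) (g 0 + h / 4),
        σ r ∈ Icc (-h) h ∧ g (σ r) = r ∧ HasDerivAt σ (g' (σ r))⁻¹ r) ∧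
      ∀ r ∈ Icc (g 0 - h / 4) (g 0 + h / 4), ∀ r' ∈ Icc (g 0 - h / 4) (g 0 + h / 4),
        |σ r - σ r'| ≤ 2 * |r - r'| := by
  have hc : ContinuousOn g (Icc (-h) h) := fun x hx => (hd x hx).continuousAt.continuousWithinAt
  have h0 : (0 : ℝ) ∈ Icc (-h) h := ⟨by linarith, hh.le⟩
  have hl : -h ∈ Icc (-h) h := ⟨le_rfl, by linarith⟩
  have hr : h ∈ Icc (-h) h := ⟨by linarith, le_rfl⟩
  have e1 := grow_Inv hd hg hl h0 (by linarith)
  have e2 := grow_Inv hd hg h0 hr hh.le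
  have hinj : InjOn g (Icc (-h) h) := fun s hs t ht e => by
    have := abs_Inv hd hg hs ht
    rw [e, sub_self, abs_zero, mul_zero] at this
    exact sub_eq_zero.1 (abs_nonpos_iff.1 this)
  have hsur : ∀ r ∈ Icc (g 0 - h / 2) (g 0 + h / 2), ∃ s ∈ Icc (-h) h, g s = r := fun r hr' =>
    intermediate_value_Icc (by linarith) hc ⟨by linarith [hr'.1], by linarith [hr'.2]⟩
  have hm : ∀ r ∈ Icc (g 0 - h / 2) (g 0 + h / 2), Function.invFunOn g (Icc (-h) h) r ∈ Icc (-h) h :=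
    fun r hr' => Function.invFunOn_mem (hsur r hr')
  have he : ∀ r ∈ Icc (g 0 - h / 2) (g 0 + h / 2), g (Function.invFunOn g (Icc (-h) h) r) = r :=
    fun r hr' => Function.invFunOn_eq (hsur r hr')
  have hlip : ∀ r ∈ Icc (g 0 - h / 2) (g 0 + h / 2), ∀ r' ∈ Icc (g 0 - h / 2) (g 0 + h / 2),
      |Function.invFunOn g (Icc (-h) h) r - Function.invFunOn g (Icc (-h) h) r'| ≤
        2 * |r - r'| := fun r h1 r' h2 => by
    have := abs_Inv hd hg (hm r h1) (hm r' h2)
    rwa [he r h1, he r' h2] at this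
  have hsub : Icc (g 0 - h / 4) (g 0 + h / 4) ⊆ Icc (g 0 - h / 2) (g 0 + h / 2) :=
    Icc_subset_Icc (by linarith) (by linarith)
  refine ⟨Function.invFunOn g (Icc (-h) h), fun s hs => hinj.leftInvOn_invFunOn hs,
    fun r hr' => ⟨hm r (hsub hr'), he r (hsub hr'), ?_⟩,
    fun r h1 r' h2 => hlip r (hsub h1) r' (hsub h2)⟩
  have hn : Icc (g 0 - h / 2) (g 0 + h / 2) ∈ 𝓝 r :=
    Icc_mem_nhds (by linarith [hr'.1]) (by linarith [hr'.2])
  have hcont : ContinuousAt (Function.invFunOn g (Icc (-h) h)) r := by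
    have hL : LipschitzOnWith 2 (Function.invFunOn g (Icc (-h) h))
        (Icc (g 0 - h / 2) (g 0 + h / 2)) :=
      LipschitzOnWith.of_dist_le_mul fun a ha b hb => by
        simpa [Real.dist_eq] using hlip a ha b hb
    exact hL.continuousOn.continuousAt hn
  refine HasDerivAt.of_local_left_inverse hcont (hd _ (hm r (hsub hr'))) ?_ ?_
  · have := hg _ (hm r (hsub hr'))
    linarith
  · filter_upwards [hn] with y hy using he y hy

end Vale.Agent.P128.Rd
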