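import Vale.Agent.P128.RAD.Def

/-! P128 RAD/Sec (TASK, about 170 lines): sections. `sec_uniq`: the set where `f = g` is relatively closed and relatively open in `I` (near `r₁` with `f r₁ = g r₁ = y`, both `f r`, `g r` are within `σ r₁` of `y`, so both equal `ζ r` by `Loc.uniq`);
use `IsPreconnected` via `isPreconnected_iff_preconnectedSpace` and `IsClopen`, or `IsPreconnected.constant`-type lemmas on the indicator of equality.
`sec_down`: by induction on `n` a section `F n` on `Icc (d (1 - σ)^n) d` through `y` (glue the local branch at the lower end point: `if r ≤ a then ζ r else F r`, `ContinuousOn.union_of_isClosed` or `ContinuousOn.if`);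
so for each `a ∈ Ioc 0 d` there is a section `G a` on `Icc a d` through `y` (`exists_pow_lt_of_lt_one`); put `f r = G r r`; by `sec_uniq` on `Icc r d`, `f = G a` on `Icc a d`; continuity at `r` from `a = r / 2`. Helper names end with `_Sec`. -/

namespace Vale.Agent.P128.Rd

open MeasureTheory Set Metric Filter Topology
open scoped ENNReal ComplexConjugate

variable {K : Set ℂ} {x y : ℂ} {R d σ A α : ℝ}

theorem Sec.mono {I J : Set ℝ} {f : ℝ → ℂ} (hf : Sec K x I f) (hJ : J ⊆ I) : Sec K x J f :=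
  ⟨hf.1.mono hJ, fun r hr => hf.2 r (hJ hr)⟩

theorem Loc.sec {ζ ζ' : ℝ → ℂ} (hL : Loc K x y d σ A α ζ ζ') :
    Sec K x (Icc (d - σ * d) (d + σ * d)) ζ :=
  ⟨fun r hr => (hL.deriv r hr).continuousAt.continuousWithinAt, hL.mem⟩

theorem sec_uniq (hσ : 0 < σ) (hL : HasLoc K x R σ A α) {I : Set ℝ} (hI : IsPreconnected I)
    (hIR : I ⊆ Ioc 0 R) {f g : ℝ → ℂ} (hf : Sec K x I f) (hg : Sec K x I g) {r₀ : ℝ}
    (h0 : r₀ ∈ I) (e0 : f r₀ = g r₀) : EqOn f g I := by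
  haveI := isPreconnected_iff_preconnectedSpace.1 hI
  have hc : IsClopen {r : I | f r = g r} := by
    refine ⟨isClosed_eq hf.1.restrict hg.1.restrict, isOpen_iff_mem_nhds.2 fun r hr => ?_⟩
    have hr' : f r = g r := hr
    have hn := (hf.2 r r.2).2
    obtain ⟨ζ, ζ', hζ⟩ := hL (f r) (hf.2 r r.2).1 (by rw [hn]; exact hIR r.2)
    have hp : 0 < σ * ‖f r - x‖ := by rw [hn]; exact mul_pos hσ (hIR r.2).1
    have a1 : ∀ᶠ s : I in 𝓝 r, dist (f s) (f r) < σ * ‖f r - x‖ :=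
      Metric.tendsto_nhds.1 (hf.1.restrict.tendsto r) _ hp
    have a2 : ∀ᶠ s : I in 𝓝 r, dist (g s) (g r) < σ * ‖f r - x‖ :=
      Metric.tendsto_nhds.1 (hg.1.restrict.tendsto r) _ hp
    filter_upwards [a1, a2] with s b1 b2
    rw [dist_eq_norm] at b1 b2
    rw [← hr'] at b2
    have c1 := hζ.uniq _ (hf.2 s s.2).1 b1.le
    have c2 := hζ.uniq _ (hg.2 s s.2).1 (by rw [hr'] at b2 ⊢; exact b2.le)
    rw [(hf.2 s s.2).2] at c1
    rw [(hg.2 s s.2).2] at c2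
    exact c1.trans c2.symm
  have hu := hc.eq_univ ⟨⟨r₀, h0⟩, e0⟩
  intro r hr
  exact (hu.symm ▸ mem_univ (⟨r, hr⟩ : I) : (⟨r, hr⟩ : I) ∈ {r : I | f r = g r})

theorem step_Sec (hσ : 0 < σ) (hL : HasLoc K x R σ A α) {a : ℝ} (ha : a ∈ Ioc 0 R) (had : a ≤ d)
    {f : ℝ → ℂ} (hf : Sec K x (Icc a d) f) :
    ∃ g : ℝ → ℂ, Sec K x (Icc (a * (1 - σ)) d) g ∧ g d = f d := by
  have hn := hf.2 a ⟨le_rfl, had⟩
  obtain ⟨ζ, ζ', hζ⟩ := hL (f a) hn.1 (by rw [hn.2]; exact ha)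
  rw [hn.2] at hζ
  have hp := mul_pos hσ ha.1
  have hs : Sec K x (Icc (a * (1 - σ)) a) ζ :=
    hζ.sec.mono (Icc_subset_Icc (by linarith) (by linarith))
  have e1 : EqOn (fun r => if r ≤ a then ζ r else f r) ζ (Icc (a * (1 - σ)) a) :=
    fun r hr => if_pos hr.2
  have e2 : EqOn (fun r => if r ≤ a then ζ r else f r) f (Icc a d) := fun r hr => by
    by_cases h : r ≤ a
    · rw [le_antisymm h hr.1]
      simp [hζ.self]
    · exact if_neg h
  refine ⟨fun r => if r ≤ a then ζ r else f r, ⟨?_, fun r hr => ?_⟩, e2 ⟨had, le_rfl⟩⟩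
  · rw [← Icc_union_Icc_eq_Icc (b := a) (by linarith) had]
    exact (hs.1.congr e1).union_of_isClosed (hf.1.congr e2) isClosed_Icc isClosed_Icc
  · rcases le_total r a with h | h
    · rw [e1 ⟨hr.1, h⟩]
      exact hs.2 r ⟨hr.1, h⟩
    · rw [e2 ⟨h, hr.2⟩]
      exact hf.2 r ⟨h, hr.2⟩

theorem sec_down (hσ : 0 < σ) (hσ1 : σ ≤ 1 / 2) (hL : HasLoc K x R σ A α) (hy : y ∈ K)
    (hd : d ∈ Ioc 0 R) (hyd : ‖y - x‖ = d) : ∃ f : ℝ → ℂ, Sec K x (Ioc 0 d) f ∧ f d = y := by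
  have h1 : 0 < 1 - σ := by linarith
  have h2 : 1 - σ < 1 := by linarith
  have hF : ∀ n : ℕ, ∃ f : ℝ → ℂ, Sec K x (Icc (d * (1 - σ) ^ n) d) f ∧ f d = y := by
    intro n
    induction n with
    | zero =>
      refine ⟨fun _ => y, ⟨continuousOn_const, fun r hr => ⟨hy, ?_⟩⟩, rfl⟩
      rw [pow_zero, mul_one] at hr
      rw [hyd, le_antisymm hr.2 hr.1]
    | succ n ih =>
      obtain ⟨f, hf, e⟩ := ih
      have h3 : d * (1 - σ) ^ n ≤ d := mul_le_of_le_one_right hd.1.le (pow_le_one₀ h1.le h2.le)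
      obtain ⟨g, hg, e'⟩ := step_Sec hσ hL ⟨mul_pos hd.1 (pow_pos h1 n), h3.trans hd.2⟩ h3 hf
      exact ⟨g, by rwa [pow_succ, ← mul_assoc], e'.trans e⟩
  have hG : ∀ a : ℝ, ∃ f : ℝ → ℂ, 0 < a → Sec K x (Icc a d) f ∧ f d = y := by
    intro a
    by_cases ha : 0 < a
    · obtain ⟨n, hn⟩ := exists_pow_lt_of_lt_one (div_pos ha hd.1) h2
      obtain ⟨f, hf, e⟩ := hF n
      refine ⟨f, fun _ => ⟨hf.mono (Icc_subset_Icc ?_ le_rfl), e⟩⟩
      rw [lt_div_iff₀ hd.1] at hn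
      linarith
    · exact ⟨fun _ => y, fun h => absurd h ha⟩
  choose G hG using hG
  have hE : ∀ a, 0 < a → EqOn (fun r => G r r) (G a) (Icc a d) := fun a ha r hr => by
    have hr0 := ha.trans_le hr.1
    exact sec_uniq hσ hL isPreconnected_Icc (fun s hs => ⟨hr0.trans_le hs.1, hs.2.trans hd.2⟩)
      (hG r hr0).1 ((hG a ha).1.mono (Icc_subset_Icc hr.1 le_rfl)) ⟨hr.2, le_rfl⟩
      ((hG r hr0).2.trans (hG a ha).2.symm) ⟨le_rfl, hr.2⟩
  refine ⟨fun r => G r r, ⟨fun r hr => ?_, fun r hr => (hG r hr.1).1.2 r ⟨le_rfl, hr.2⟩⟩,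
    (hG d hd.1).2⟩
  have h4 : 0 < r / 2 := half_pos hr.1
  have h5 := ((hG _ h4).1.1.congr (hE _ h4)) r ⟨by linarith [hr.1], hr.2⟩
  refine h5.mono_of_mem_nhdsWithin ?_
  filter_upwards [self_mem_nhdsWithin,
    nhdsWithin_le_nhds (Ioi_mem_nhds (show r / 2 < r by linarith [hr.1]))] with s s1 s2
  exact ⟨le_of_lt s2, s1.2⟩

end Vale.Agent.P128.Rd
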